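import Vale.Agent.P325.H936.Tab

/-!
# A gadget on the functions of four bits: checks of the shares
-/

namespace Vale.Agent.P325.H936

set_option maxRecDepth 100000 in
theorem ckE_0 : allB ckE 12 0 = true := by decide +kernel

set_option maxRecDepth 100000 in
theorem ckE_1 : allB ckE 12 4096 = true := by decide +kernel

set_option maxRecDepth 100000 in
theorem ckE_2 : allB ckE 12 8192 = true := by decide +kernel

set_option maxRecDepth 100000 in
theorem ckE_3 : allB ckE 12 12288 = true := by decide +kernel

set_option maxRecDepth 100000 in
theorem ckE_4 : allB ckE 12 16384 = true := by decide +kernel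

set_option maxRecDepth 100000 in
theorem ckE_5 : allB ckE 12 20480 = true := by decide +kernel

set_option maxRecDepth 100000 in
theorem ckE_6 : allB ckE 12 24576 = true := by decide +kernel

set_option maxRecDepth 100000 in
theorem ckE_7 : allB ckE 12 28672 = true := by decide +kernel

end Vale.Agent.P325.H936
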