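import Vale.Agent.P325.H936.Tab

/-!
# A gadget on the functions of four bits: checks of the shares
-/

namespace Vale.Agent.P325.H936

set_option maxRecDepth 100000 in
theorem ckE_8 : allB ckE 12 32768 = true := by decide +kernel

set_option maxRecDepth 100000 in
theorem ckE_9 : allB ckE 12 36864 = true := by decide +kernel

set_option maxRecDepth 100000 in
theorem ckE_10 : allB ckE 12 40960 = true := by decide +kernel

set_option maxRecDepth 100000 in
theorem ckE_11 : allB ckE 12 45056 = true := by decide +kernel

set_option maxRecDepth 100000 in
theorem ckE_12 : allB ckE 12 49152 = true := by decide +kernel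

set_option maxRecDepth 100000 in
theorem ckE_13 : allB ckE 12 53248 = true := by decide +kernel

set_option maxRecDepth 100000 in
theorem ckE_14 : allB ckE 12 57344 = true := by decide +kernel

set_option maxRecDepth 100000 in
theorem ckE_15 : allB ckE 12 61440 = true := by decide +kernel

end Vale.Agent.P325.H936
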