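import Vale.Agent.P325.H936.Tab

/-!
# A gadget on the functions of four bits: checks of the tables
-/

namespace Vale.Agent.P325.H936

set_option maxRecDepth 100000 in
theorem ckN_0 : allB ckN 12 0 = true := by decide +kernel

set_option maxRecDepth 100000 in
theorem ckN_1 : allB ckN 12 4096 = true := by decide +kernel

set_option maxRecDepth 100000 in
theorem ckM_0 : allB ckM 12 0 = true := by decide +kernel

set_option maxRecDepth 100000 in
theorem ckM_1 : allB ckM 12 4096 = true := by decide +kernel

set_option maxRecDepth 100000 in
theorem ckC_0 : allB ckC 12 0 = true := by decide +kernel

set_option maxRecDepth 100000 in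
theorem ckC_1 : allB ckC 12 4096 = true := by decide +kernel

set_option maxRecDepth 100000 in
theorem ckC_2 : allB ckC 12 8192 = true := by decide +kernel

set_option maxRecDepth 100000 in
theorem ckC_3 : allB ckC 12 12288 = true := by decide +kernel

set_option maxRecDepth 100000 in
theorem ckC_4 : allB ckC 12 16384 = true := by decide +kernel

set_option maxRecDepth 100000 in
theorem ckC_5 : allB ckC 12 20480 = true := by decide +kernel

set_option maxRecDepth 100000 in
theorem ckC_6 : allB ckC 12 24576 = true := by decide +kernel

set_option maxRecDepth 100000 in
theorem ckC_7 : allB ckC 12 28672 = true := by decide +kernel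

set_option maxRecDepth 100000 in
theorem ckC_8 : allB ckC 12 32768 = true := by decide +kernel

set_option maxRecDepth 100000 in
theorem ckC_9 : allB ckC 12 36864 = true := by decide +kernel

set_option maxRecDepth 100000 in
theorem ckC_10 : allB ckC 12 40960 = true := by decide +kernel

set_option maxRecDepth 100000 in
theorem ckC_11 : allB ckC 12 45056 = true := by decide +kernel

set_option maxRecDepth 100000 in
theorem ckC_12 : allB ckC 12 49152 = true := by decide +kernel

set_option maxRecDepth 100000 in
theorem ckC_13 : allB ckC 12 53248 = true := by decide +kernel

set_option maxRecDepth 100000 in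
theorem ckC_14 : allB ckC 12 57344 = true := by decide +kernel

set_option maxRecDepth 100000 in
theorem ckC_15 : allB ckC 12 61440 = true := by decide +kernel

set_option maxRecDepth 100000 in
theorem ckP_0 : allB ckP 12 0 = true := by decide +kernel

set_option maxRecDepth 100000 in
theorem ckP_1 : allB ckP 12 4096 = true := by decide +kernel

set_option maxRecDepth 100000 in
theorem ckP_2 : allB ckP 12 8192 = true := by decide +kernel

set_option maxRecDepth 100000 in
theorem ckP_3 : allB ckP 12 12288 = true := by decide +kernel

set_option maxRecDepth 100000 in
theorem ckP_4 : allB ckP 12 16384 = true := by decide +kernel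

set_option maxRecDepth 100000 in
theorem ckP_5 : allB ckP 12 20480 = true := by decide +kernel

set_option maxRecDepth 100000 in
theorem ckP_6 : allB ckP 12 24576 = true := by decide +kernel

set_option maxRecDepth 100000 in
theorem ckP_7 : allB ckP 12 28672 = true := by decide +kernel

set_option maxRecDepth 100000 in
theorem ckP_8 : allB ckP 12 32768 = true := by decide +kernel

set_option maxRecDepth 100000 in
theorem ckP_9 : allB ckP 12 36864 = true := by decide +kernel

set_option maxRecDepth 100000 in
theorem ckP_10 : allB ckP 12 40960 = true := by decide +kernel

set_option maxRecDepth 100000 in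
theorem ckP_11 : allB ckP 12 45056 = true := by decide +kernel

set_option maxRecDepth 100000 in
theorem ckP_12 : allB ckP 12 49152 = true := by decide +kernel

set_option maxRecDepth 100000 in
theorem ckP_13 : allB ckP 12 53248 = true := by decide +kernel

set_option maxRecDepth 100000 in
theorem ckP_14 : allB ckP 12 57344 = true := by decide +kernel

set_option maxRecDepth 100000 in
theorem ckP_15 : allB ckP 12 61440 = true := by decide +kernel

end Vale.Agent.P325.H936
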