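import Vale.Agent.P325.H936.Tab

/-!
# A gadget on the functions of four bits: checks of the shares
-/

namespace Vale.Agent.P325.H936

set_option maxRecDepth 100000 in
theorem ckO_0 : allB ckO 12 0 = true := by decide +kernel

set_option maxRecDepth 100000 in
theorem ckO_1 : allB ckO 12 4096 = true := by decide +kernel

set_option maxRecDepth 100000 in
theorem ckO_2 : allB ckO 12 8192 = true := by decide +kernel

set_option maxRecDepth 100000 in
theorem ckO_3 : allB ckO 12 12288 = true := by decide +kernel

set_option maxRecDepth 100000 in
theorem ckO_4 : allB ckO 12 16384 = true := by decide +kernel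

set_option maxRecDepth 100000 in
theorem ckO_5 : allB ckO 12 20480 = true := by decide +kernel

set_option maxRecDepth 100000 in
theorem ckO_6 : allB ckO 12 24576 = true := by decide +kernel

set_option maxRecDepth 100000 in
theorem ckO_7 : allB ckO 12 28672 = true := by decide +kernel

end Vale.Agent.P325.H936
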