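import Vale.Agent.P325.H936.Fib

/-!
# A gadget with completeness seven eighths: tables

The vertices are the functions of four bits at distance at most two of an affine function, and the
products of two affine functions; the edges join functions at distance two.
-/

namespace Vale.Agent.P325.H936.Eig

open Finset

/-- The pairs of points. -/
def dl : List ℕ := [3, 5, 9, 17, 33, 65, 129, 257, 513, 1025, 2049, 4097, 8193, 16385, 32769, 6,
  10, 18, 34, 66, 130, 258, 514, 1026, 2050, 4098, 8194, 16386, 32770, 12, 20, 36,
  68, 132, 260, 516, 1028, 2052, 4100, 8196, 16388, 32772, 24, 40, 72, 136, 264, 520,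
  1032, 2056, 4104, 8200, 16392, 32776, 48, 80, 144, 272, 528, 1040, 2064, 4112, 8208, 16400,
  32784, 96, 160, 288, 544, 1056, 2080, 4128, 8224, 16416, 32800, 192, 320, 576, 1088, 2112,
  4160, 8256, 16448, 32832, 384, 640, 1152, 2176, 4224, 8320, 16512, 32896, 768, 1280, 2304, 4352,
  8448, 16640, 33024, 1536, 2560, 4608, 8704, 16896, 33280, 3072, 5120, 9216, 17408, 33792, 6144, 10240,
  18432, 34816, 12288, 20480, 36864, 24576, 40960, 49152]

/-- The shares of the first end. -/
def tP (d e : ℕ) : ℕ :=
  Nat.land (Nat.shiftRight 0x600000000000000000000000000000000000000000000000000000000000000000000000000000000000000000000000000000000000000000000000000000005c000000630000000000000000000000000000000000000000000000000000000000000060000000000000000000000000000000000000000000000000000000000000004b0000007c00000000000000000000000000000000000000000000000000000000000000000000000000000000000000000000000000000000000000000000000000000000000000000000000000000000000000000000000000000000000000000000000000000000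
    (Nat.mul 8 (Nat.add (Nat.mul 16 d) e))) 255

/-- The share of the first end, for the class of the second end and the two distances. -/
def shO (b d h : ℕ) : ℕ :=
  bif Nat.beq b 4 then tP d (pc h) else
    bif Nat.beq b 0 then (bif Nat.beq (pc h) 0 then 672 else 0) else 0

/-- The share of the second end. -/
def shE (a d h : ℕ) : ℕ := bif Nat.beq a 2 then Nat.sub 124 (tP (pc h) d) else 0

def sO (g x : ℕ) : ℕ := shO (cl (Nat.xor (sy g) (sy x))) (pc g) (Nat.xor g x)

def sE (g x : ℕ) : ℕ := shE (cl (Nat.xor (sy g) (sy x))) (pc g) (Nat.xor g x)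

def sN (s x : ℕ) : ℕ := bif Nat.beq (cl (Nat.xor s (sy x))) 4 then 93 else 0

def sM (s x : ℕ) : ℕ := bif Nat.beq (cl (Nat.xor s (sy x))) 2 then 31 else 0

/-- The sum over a list. -/
def sumL (F : ℕ → ℕ) : List ℕ → ℕ
  | [] => 0
  | x :: l => Nat.add (F x) (sumL F l)

def cO (g : ℕ) : Bool := !(Nat.beq (cl (sy g)) 2) || Nat.ble (sumL (sO g) dl) 672

def cE (g : ℕ) : Bool := !(Nat.beq (cl (sy g)) 4) || Nat.ble (sumL (sE g) dl) 744

def cN (s : ℕ) : Bool := !(Nat.beq (cl s) 2) || Nat.ble (sumL (sN s) dl) 672

def cM (s : ℕ) : Bool := !(Nat.beq (cl s) 4) || Nat.ble (sumL (sM s) dl) 744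

/-- The multiplicity of an edge, by the classes of the ends. -/
def wg (a b : ℕ) : ℕ :=
  bif Nat.beq a 2 then (bif Nat.beq b 0 then 672 else bif Nat.beq b 4 then 124 else 0) else 0

def wk (q s : ℕ) : ℕ := bif Nat.beq (cl s) 2 then wg 2 (cl (Nat.xor s q)) else 0

def kg (s : ℕ) : ℕ :=
  bif Nat.beq (cl s) 2 then 672 else bif Nat.beq (cl s) 4 then 744 else 0

end Vale.Agent.P325.H936.Eig
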