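import Vale.Agent.P325.H936.EigW

/-!
# A gadget with completeness seven eighths: the numbers of edges, all directions
-/

namespace Vale.Agent.P325.H936.Eig

theorem wk_of {x q : ℕ} (h : sy x = q) (hq : sumB (vf (wk q)) 13 0 = 1540) :
    sumB (vf (wk (sy x))) 13 0 = 1540 := by
  rw [h]
  exact hq

/-- A property of all members of a list. -/
def Al (P : ℕ → Prop) : List ℕ → Prop
  | [] => True
  | x :: l => P x ∧ Al P l

theorem of_Al (P : ℕ → Prop) : ∀ l : List ℕ, Al P l → ∀ x ∈ l, P x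
  | [], _, x, hx => absurd hx List.not_mem_nil
  | y :: l, h, x, hx => by
    rcases List.mem_cons.1 hx with h1 | h1
    · rw [h1]
      exact h.1
    · exact of_Al P l h.2 x h1

theorem wk_all : ∀ x ∈ dl, sumB (vf (wk (sy x))) 13 0 = 1540 :=
  of_Al _ dl
    ⟨wk_of sy_3 wk_3,
    wk_of sy_5 wk_5,
    wk_of sy_9 wk_9,
    wk_of sy_17 wk_17,
    wk_of sy_33 wk_33,
    wk_of sy_65 wk_65,
    wk_of sy_129 wk_129,
    wk_of sy_257 wk_257,
    wk_of sy_513 wk_513,
    wk_of sy_1025 wk_1025,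
    wk_of sy_2049 wk_2049,
    wk_of sy_4097 wk_4097,
    wk_of sy_8193 wk_8193,
    wk_of sy_16385 wk_16385,
    wk_of sy_32769 wk_32769,
    wk_of sy_6 wk_6,
    wk_of sy_10 wk_10,
    wk_of sy_18 wk_18,
    wk_of sy_34 wk_34,
    wk_of sy_66 wk_66,
    wk_of sy_130 wk_130,
    wk_of sy_258 wk_258,
    wk_of sy_514 wk_514,
    wk_of sy_1026 wk_1026,
    wk_of sy_2050 wk_2050,
    wk_of sy_4098 wk_4098,
    wk_of sy_8194 wk_8194,
    wk_of sy_16386 wk_16386,
    wk_of sy_32770 wk_32770,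
    wk_of sy_12 wk_12,
    wk_of sy_20 wk_20,
    wk_of sy_36 wk_36,
    wk_of sy_68 wk_68,
    wk_of sy_132 wk_132,
    wk_of sy_260 wk_260,
    wk_of sy_516 wk_516,
    wk_of sy_1028 wk_1028,
    wk_of sy_2052 wk_2052,
    wk_of sy_4100 wk_4100,
    wk_of sy_8196 wk_8196,
    wk_of sy_16388 wk_16388,
    wk_of sy_32772 wk_32772,
    wk_of sy_24 wk_24,
    wk_of sy_40 wk_40,
    wk_of sy_72 wk_72,
    wk_of sy_136 wk_136,
    wk_of sy_264 wk_264,
    wk_of sy_520 wk_520,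
    wk_of sy_1032 wk_1032,
    wk_of sy_2056 wk_2056,
    wk_of sy_4104 wk_4104,
    wk_of sy_8200 wk_8200,
    wk_of sy_16392 wk_16392,
    wk_of sy_32776 wk_32776,
    wk_of sy_48 wk_48,
    wk_of sy_80 wk_80,
    wk_of sy_144 wk_144,
    wk_of sy_272 wk_272,
    wk_of sy_528 wk_528,
    wk_of sy_1040 wk_1040,
    wk_of sy_2064 wk_2064,
    wk_of sy_4112 wk_4112,
    wk_of sy_8208 wk_8208,
    wk_of sy_16400 wk_16400,
    wk_of sy_32784 wk_32784,
    wk_of sy_96 wk_96,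
    wk_of sy_160 wk_160,
    wk_of sy_288 wk_288,
    wk_of sy_544 wk_544,
    wk_of sy_1056 wk_1056,
    wk_of sy_2080 wk_2080,
    wk_of sy_4128 wk_4128,
    wk_of sy_8224 wk_8224,
    wk_of sy_16416 wk_16416,
    wk_of sy_32800 wk_32800,
    wk_of sy_192 wk_192,
    wk_of sy_320 wk_320,
    wk_of sy_576 wk_576,
    wk_of sy_1088 wk_1088,
    wk_of sy_2112 wk_2112,
    wk_of sy_4160 wk_4160,
    wk_of sy_8256 wk_8256,
    wk_of sy_16448 wk_16448,
    wk_of sy_32832 wk_32832,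
    wk_of sy_384 wk_384,
    wk_of sy_640 wk_640,
    wk_of sy_1152 wk_1152,
    wk_of sy_2176 wk_2176,
    wk_of sy_4224 wk_4224,
    wk_of sy_8320 wk_8320,
    wk_of sy_16512 wk_16512,
    wk_of sy_32896 wk_32896,
    wk_of sy_768 wk_768,
    wk_of sy_1280 wk_1280,
    wk_of sy_2304 wk_2304,
    wk_of sy_4352 wk_4352,
    wk_of sy_8448 wk_8448,
    wk_of sy_16640 wk_16640,
    wk_of sy_33024 wk_33024,
    wk_of sy_1536 wk_1536,
    wk_of sy_2560 wk_2560,
    wk_of sy_4608 wk_4608,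
    wk_of sy_8704 wk_8704,
    wk_of sy_16896 wk_16896,
    wk_of sy_33280 wk_33280,
    wk_of sy_3072 wk_3072,
    wk_of sy_5120 wk_5120,
    wk_of sy_9216 wk_9216,
    wk_of sy_17408 wk_17408,
    wk_of sy_33792 wk_33792,
    wk_of sy_6144 wk_6144,
    wk_of sy_10240 wk_10240,
    wk_of sy_18432 wk_18432,
    wk_of sy_34816 wk_34816,
    wk_of sy_12288 wk_12288,
    wk_of sy_20480 wk_20480,
    wk_of sy_36864 wk_36864,
    wk_of sy_24576 wk_24576,
    wk_of sy_40960 wk_40960,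
    wk_of sy_49152 wk_49152,
    trivial⟩

end Vale.Agent.P325.H936.Eig
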