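import Vale.Agent.P325.H936.Eig

/-!
# A gadget with completeness seven eighths: checks
-/

namespace Vale.Agent.P325.H936.Eig

set_option maxRecDepth 100000 in
theorem cE_0 : allB cE 13 0 = true := by decide +kernel

set_option maxRecDepth 100000 in
theorem cE_1 : allB cE 13 8192 = true := by decide +kernel

set_option maxRecDepth 100000 in
theorem cE_2 : allB cE 13 16384 = true := by decide +kernel

set_option maxRecDepth 100000 in
theorem cE_3 : allB cE 13 24576 = true := by decide +kernel

set_option maxRecDepth 100000 in
theorem cE_4 : allB cE 13 32768 = true := by decide +kernel

set_option maxRecDepth 100000 in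
theorem cE_5 : allB cE 13 40960 = true := by decide +kernel

set_option maxRecDepth 100000 in
theorem cE_6 : allB cE 13 49152 = true := by decide +kernel

set_option maxRecDepth 100000 in
theorem cE_7 : allB cE 13 57344 = true := by decide +kernel

set_option maxRecDepth 100000 in
theorem cN_0 : allB cN 13 0 = true := by decide +kernel

set_option maxRecDepth 100000 in
theorem cM_0 : allB cM 13 0 = true := by decide +kernel

set_option maxRecDepth 100000 in
theorem kg_0 : sumB (vf kg) 13 0 = 106680 := by decide +kernel

end Vale.Agent.P325.H936.Eig
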