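import Vale.Agent.P325.H936.No

/-!
# A gadget on the functions of four bits: the gadget and its two values
-/

namespace Vale.Agent.P325.H936

open Finset Vale.Agent.P325.Star

/-- The vertex of the gadget. -/
def vx (f : ℕ) : (Fin 4 → F) ⊕ Fin 65536 :=
  if cls f = 0 then Sum.inl (tl f) else Sum.inr (Fin.ofNat 65536 f)

/-- The gadget: the terminals are the linear functions, the edges join the functions which differ
at exactly one point. -/
noncomputable def quad : Gad where
  s := 4
  a := 65536
  E := (List.range 65536).flatMap fun f => (List.range 16).flatMap fun p =>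
    List.replicate (wf p f) (vx f, vx (nb f p), sgn f + sgn (nb f p))

theorem lsum (n : ℕ) (f : ℕ → ℕ) : ((List.range n).map f).sum = ∑ x ∈ range n, f x := rfl

theorem length_quad (h : Facts) : quad.E.length = 688558080 := by
  have h1 : quad.E.length = ∑ f ∈ range 65536, ∑ p ∈ range 16, wf p f := by
    simp only [quad, List.length_flatMap, List.length_replicate, lsum]
  rw [h1, sum_comm, sum_congr rfl fun p hp => h.w p (mem_range.1 hp), sum_const, card_range]
  norm_num

theorem ite_decide (P : Prop) [Decidable P] (n : ℕ) :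
    (if decide P = true then n else 0) = if P then n else 0 := by
  by_cases h : P <;> simp [h]

theorem num_quad {W : Type} [AddCommGroup W] [Module F W] [DecidableEq W] (c : W)
    (τ : (Fin 4 → F) → W) (g : Fin 65536 → W) :
    quad.num c τ g = ∑ f ∈ range 65536, ∑ p ∈ range 16,
      if Sum.elim τ g (vx f) + Sum.elim τ g (vx (nb f p)) = (sgn f + sgn (nb f p)) • c
        then wf p f else 0 := by
  show List.countP _ quad.E = _
  simp only [quad, List.countP_flatMap, List.countP_replicate, Function.comp_def, lsum]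
  exact sum_congr rfl fun f _ => sum_congr rfl fun p _ => ite_decide _ _

theorem flip_iff {W : Type} [AddCommGroup W] [Module F W] (A B c : W) (s s' : F) :
    A + B = (s + s') • c ↔ A + s • c = B + s' • c := by
  have hB := H111.add_self_W B
  have hs := H111.add_self_W (s • c)
  rw [add_smul]
  constructor
  · intro h
    calc A + s • c = (A + B) + (B + s • c) := by
          rw [add_assoc, ← add_assoc B B, hB, zero_add]
      _ = (s • c + s' • c) + (B + s • c) := by rw [h]
      _ = (s • c + s • c) + (B + s' • c) := by abel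
      _ = B + s' • c := by rw [hs, zero_add]
  · intro h
    calc A + B = (A + B) + (s • c + s • c) := by rw [hs, add_zero]
      _ = (A + s • c) + (B + s • c) := by abel
      _ = (B + s' • c) + (B + s • c) := by rw [h]
      _ = (B + B) + (s • c + s' • c) := by abel
      _ = s • c + s' • c := by rw [hB, zero_add]

theorem quad_le (h : Facts) {W : Type} [AddCommGroup W] [Module F W] [DecidableEq W] (c : W)
    (τ : (Fin 4 → F) → W) (g : Fin 65536 → W) (hc : c ≠ 0)
    (hτ : ∀ l l', l ≠ l' → τ l' ≠ τ l ∧ τ l' ≠ τ l + c) : quad.num c τ g ≤ 538567680 := by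
  classical
  set G : ℕ → W := fun f => Sum.elim τ g (vx f) + sgn f • c with hGdef
  have h0 : ∀ k ∈ cwl, G k = τ (tl k) + bF k 0 • c := by
    intro k hk
    simp only [hGdef, vx, sgn, cw_cls k hk, if_true, Sum.elim_inl]
  have hF : ∀ e : F, e = 0 ∨ e = 1 := by decide
  have h2 := H111.add_self_W c
  have hG : ∀ k ∈ cwl, ∀ k' ∈ cwl, G k = G k' → k = k' := by
    intro k hk k' hk' he
    rw [h0 k hk, h0 k' hk'] at he
    by_cases ht : tl k = tl k'
    · refine cw_eq k hk k' hk' ht ?_
      rw [ht] at he
      have h3 := add_left_cancel he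
      rcases hF (bF k 0) with h4 | h4 <;> rcases hF (bF k' 0) with h5 | h5 <;>
        rw [h4, h5] at h3 ⊢
      · rw [zero_smul, one_smul] at h3
        exact absurd h3.symm hc
      · rw [zero_smul, one_smul] at h3
        exact absurd h3 hc
    · exfalso
      have h1 := hτ _ _ ht
      rcases hF (bF k 0) with h4 | h4 <;> rcases hF (bF k' 0) with h5 | h5 <;>
        rw [h4, h5] at he <;> simp only [zero_smul, add_zero, one_smul] at he
      · exact h1.1 he.symm
      · refine h1.2 ?_
        rw [he, add_assoc, h2, add_zero]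
      · exact h1.2 he.symm
      · exact h1.1 (add_right_cancel he).symm
  refine le_trans (le_of_eq ?_) (main_le G hG h)
  rw [num_quad]
  refine sum_congr rfl fun f _ => sum_congr rfl fun p _ => ?_
  by_cases hh : G f = G (nb f p)
  · rw [if_pos hh, if_pos ((flip_iff _ _ _ _ _).2 hh)]
  · rw [if_neg hh, if_neg fun h3 => hh ((flip_iff _ _ _ _ _).1 h3)]

theorem quad_no (h : Facts) : quad.No (5009 / 6404) := by
  intro W _ _ _ c τ g hc hτ
  have h3 : quad.num c τ g ≤ 538567680 := quad_le h c τ g hc hτ
  have h4 : (quad.num c τ g : ℝ) ≤ 538567680 := by exact_mod_cast h3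
  rw [length_quad h]
  push_cast
  linarith

/-- The number of a point. -/
def pt (t : Fin 4 → F) : ℕ :=
  (if t 0 = 1 then 1 else 0) + (if t 1 = 1 then 2 else 0) + (if t 2 = 1 then 4 else 0) +
    (if t 3 = 1 then 8 else 0)

theorem pt_lt (t : Fin 4 → F) : pt t < 16 := by
  unfold pt
  split_ifs <;> norm_num

theorem cw_pt : ∀ c ∈ cwl, ∀ t : Fin 4 → F, tl c ⬝ᵥ t + bF c 0 = bF c (pt t) := by
  decide +kernel

theorem quad_yes (h : Facts) : quad.Yes (15 / 16) := by
  intro t
  refine ⟨fun v : Fin 65536 => bF v (pt t), ?_⟩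
  have h0 : ∀ f < 65536, Sum.elim (fun l : Fin 4 → F => l ⬝ᵥ t)
      (fun v : Fin 65536 => bF v (pt t)) (vx f) + sgn f • (1 : F) = bF f (pt t) := by
    intro f hf
    unfold vx sgn
    split_ifs with h1
    · rw [Sum.elim_inl, smul_eq_mul, mul_one]
      exact cw_pt f (h.mem hf h1) t
    · rw [Sum.elim_inr, zero_smul, add_zero]
      have : ((Fin.ofNat 65536 f : Fin 65536) : ℕ) = f := Nat.mod_eq_of_lt hf
      rw [this]
  have h1 : 645523200 ≤ quad.num (1 : F) (fun l => l ⬝ᵥ t) (fun v : Fin 65536 => bF v (pt t)) := by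
    have h2 := num_quad (1 : F) (fun l => l ⬝ᵥ t) (fun v : Fin 65536 => bF v (pt t))
    refine le_trans ?_ (le_of_eq h2.symm)
    simp only [flip_iff]
    rw [sum_comm]
    calc 645523200 = ∑ p ∈ (range 16).erase (pt t), ∑ f ∈ range 65536, wf p f := by
          rw [sum_congr rfl fun p hp => h.w p (mem_range.1 (mem_of_mem_erase hp)), sum_const,
            card_erase_of_mem (mem_range.2 (pt_lt t)), card_range]
          norm_num
      _ ≤ ∑ p ∈ (range 16).erase (pt t), ∑ f ∈ range 65536, _ := by
          refine sum_le_sum fun p hp => sum_le_sum fun f hf => ?_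
          rw [if_pos]
          rw [h0 f (mem_range.1 hf),
            h0 (nb f p) (nb_lt (mem_range.1 hf) (mem_range.1 (mem_of_mem_erase hp)))]
          unfold bF
          rw [bt_nb f (Ne.symm (ne_of_mem_erase hp))]
      _ ≤ _ := sum_le_sum_of_subset (erase_subset _ _)
  rw [length_quad h]
  have h4 : (645523200 : ℝ) ≤
      (quad.num (1 : F) (fun l => l ⬝ᵥ t) (fun v : Fin 65536 => bF v (pt t)) : ℝ) := by
    exact_mod_cast h1
  refine le_trans (le_of_eq ?_) h4
  norm_num

end Vale.Agent.P325.H936
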