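import Vale.Agent.P325.H936.Eig
import Vale.Agent.P325.H936.Quad

/-!
# A gadget with completeness seven eighths: soundness
-/

namespace Vale.Agent.P325.H936.Eig

open Finset Vale.Agent.P325.Star Vale.Agent.P325.H936

/-- All checks on the tables. -/
structure Facts : Prop where
  o : ∀ f < 65536, cO f = true
  e : ∀ f < 65536, cE f = true
  n : ∀ s < 8192, cN s = true
  m : ∀ s < 8192, cM s = true
  k : ∑ f ∈ range 65536, kg (sy f) = 3413760
  w : ∀ x ∈ dl, ∑ f ∈ range 65536, wg (cls f) (cls (f ^^^ x)) = 49280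

theorem dl_lt : ∀ x ∈ dl, x < 65536 := by decide +kernel

theorem dl_nodup : dl.Nodup := by decide +kernel

theorem sumL_eq (F : ℕ → ℕ) : ∀ l : List ℕ, sumL F l = (l.map F).sum
  | [] => rfl
  | x :: l => by
    rw [List.map_cons, List.sum_cons, ← sumL_eq F l]
    rfl

/-- The directions. -/
def D : Finset ℕ := dl.toFinset

theorem mem_D {x : ℕ} : x ∈ D ↔ x ∈ dl := List.mem_toFinset

theorem sum_D (F : ℕ → ℕ) : (dl.map F).sum = ∑ x ∈ D, F x :=
  (List.sum_toFinset F dl_nodup).symm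

theorem sumL_D (F : ℕ → ℕ) : sumL F dl = ∑ x ∈ D, F x := by
  rw [sumL_eq, sum_D]

theorem xor_lt' {f x : ℕ} (hf : f < 65536) (hx : x ∈ D) : f ^^^ x < 65536 := by
  have h : (65536 : ℕ) = 2 ^ 16 := by norm_num
  have h2 := dl_lt x (mem_D.1 hx)
  rw [h] at hf h2 ⊢
  exact Nat.xor_lt_two_pow hf h2

theorem xor_xor (f x : ℕ) : (f ^^^ x) ^^^ x = f := by
  rw [Nat.xor_assoc, Nat.xor_self, Nat.xor_zero]

theorem Facts.rowO (h : Facts) {g : ℕ} (hg : g < 65536) (h2 : cls g = 2) :
    ∑ x ∈ D, shO (cls (g ^^^ x)) (pc g) (g ^^^ x) ≤ 672 := by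
  have h1 := h.o g hg
  unfold cO at h1
  have h3 : Nat.beq (cl (sy g)) 2 = true := by
    have : cl (sy g) = 2 := h2
    rw [this]
    rfl
  rw [h3, Bool.not_true, Bool.false_or] at h1
  have h4 := Nat.le_of_ble_eq_true h1
  rw [sumL_D] at h4
  refine le_trans (le_of_eq (sum_congr rfl fun x _ => ?_)) h4
  unfold cls
  rw [sy_xor]
  rfl

theorem Facts.rowE (h : Facts) {g : ℕ} (hg : g < 65536) (h2 : cls g = 4) :
    ∑ x ∈ D, shE (cls (g ^^^ x)) (pc g) (g ^^^ x) ≤ 744 := by
  have h1 := h.e g hg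
  unfold cE at h1
  have h3 : Nat.beq (cl (sy g)) 4 = true := by
    have : cl (sy g) = 4 := h2
    rw [this]
    rfl
  rw [h3, Bool.not_true, Bool.false_or] at h1
  have h4 := Nat.le_of_ble_eq_true h1
  rw [sumL_D] at h4
  refine le_trans (le_of_eq (sum_congr rfl fun x _ => ?_)) h4
  unfold cls
  rw [sy_xor]
  rfl

theorem Facts.rowN (h : Facts) {g : ℕ} (h2 : cls g = 2) :
    ∑ x ∈ D, (bif Nat.beq (cls (g ^^^ x)) 4 then 93 else 0) ≤ 672 := by
  have h1 := h.n (sy g) (sy_lt g)
  unfold cN at h1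
  have h3 : Nat.beq (cl (sy g)) 2 = true := by
    have : cl (sy g) = 2 := h2
    rw [this]
    rfl
  rw [h3, Bool.not_true, Bool.false_or] at h1
  have h4 := Nat.le_of_ble_eq_true h1
  rw [sumL_D] at h4
  refine le_trans (le_of_eq (sum_congr rfl fun x _ => ?_)) h4
  unfold cls
  rw [sy_xor]
  rfl

theorem Facts.rowM (h : Facts) {g : ℕ} (h2 : cls g = 4) :
    ∑ x ∈ D, (bif Nat.beq (cls (g ^^^ x)) 2 then 31 else 0) ≤ 744 := by
  have h1 := h.m (sy g) (sy_lt g)
  unfold cM at h1
  have h3 : Nat.beq (cl (sy g)) 4 = true := by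
    have : cl (sy g) = 4 := h2
    rw [this]
    rfl
  rw [h3, Bool.not_true, Bool.false_or] at h1
  have h4 := Nat.le_of_ble_eq_true h1
  rw [sumL_D] at h4
  refine le_trans (le_of_eq (sum_congr rfl fun x _ => ?_)) h4
  unfold cls
  rw [sy_xor]
  rfl

theorem beq_iff {a b : ℕ} : Nat.beq a b = true ↔ a = b := by
  constructor
  · exact Nat.eq_of_beq_eq_true
  · rintro rfl
    exact Nat.beq_refl a

theorem wg_of_ne {a : ℕ} (b : ℕ) (ha : a ≠ 2) : wg a b = 0 := by
  unfold wg
  have : Nat.beq a 2 = false := by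
    rw [← Bool.not_eq_true, beq_iff]
    exact ha
  rw [this]
  rfl

theorem wg_of_ne' (a : ℕ) {b : ℕ} (h0 : b ≠ 0) (h4 : b ≠ 4) : wg a b = 0 := by
  unfold wg
  have h1 : Nat.beq b 0 = false := by
    rw [← Bool.not_eq_true, beq_iff]
    exact h0
  have h2 : Nat.beq b 4 = false := by
    rw [← Bool.not_eq_true, beq_iff]
    exact h4
  rw [h1, h2]
  cases Nat.beq a 2 <;> rfl

section No

variable {W : Type} (G : ℕ → W) (hG : ∀ c ∈ cwl, ∀ c' ∈ cwl, G c = G c' → c = c')

/-- The share of the first end. -/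
noncomputable def sh (f x : ℕ) : ℕ :=
  match st G (G f) with
  | none => bif Nat.beq (cls (f ^^^ x)) 4 then 93 else 0
  | some c => shO (cls (f ^^^ x)) (pc (f ^^^ c)) ((f ^^^ c) ^^^ x)

theorem swap (f c x : ℕ) : (f ^^^ c) ^^^ x = (f ^^^ x) ^^^ c := by
  rw [Nat.xor_assoc, Nat.xor_comm c, Nat.xor_assoc]

theorem cls_swap (f x : ℕ) {c : ℕ} (hc : c ∈ cwl) : cls ((f ^^^ c) ^^^ x) = cls (f ^^^ x) := by
  rw [swap, cls_xor _ hc]

open Classical in
theorem first_le (h : Facts) {f : ℕ} (hf : f < 65536) (h2 : cls f = 2) :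
    ∑ x ∈ D, (if G f = G (f ^^^ x) then sh G f x else 0) ≤ 672 := by
  rcases h0 : st G (G f) with _ | c
  · refine le_trans (sum_le_sum fun x _ => ?_) (h.rowN h2)
    split_ifs
    · simp only [sh, h0, le_refl]
    · exact Nat.zero_le _
  · have hc := (of_st G h0).1
    refine le_trans (sum_le_sum fun x _ => ?_)
      (h.rowO (xor_lt hf hc) (by rw [cls_xor f hc, h2]))
    split_ifs
    · rw [cls_swap f x hc]
      simp only [sh, h0, le_refl]
    · exact Nat.zero_le _

open Classical in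
include hG in
theorem second_four (h : Facts) {f : ℕ} (hf : f < 65536) (h4 : cls f = 4) :
    ∑ x ∈ D, (if G (f ^^^ x) = G f then wg (cls (f ^^^ x)) (cls f) - sh G (f ^^^ x) x else 0) ≤
      744 := by
  rcases h0 : st G (G f) with _ | c
  · refine le_trans (sum_le_sum fun x _ => ?_) (h.rowM h4)
    split_ifs with h2
    · have h3 : sh G (f ^^^ x) x = 93 := by
        unfold sh
        rw [h2, h0, xor_xor, h4]
        rfl
      rw [h3, h4]
      unfold wg
      cases Nat.beq (cls (f ^^^ x)) 2 <;> exact le_refl _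
    · exact Nat.zero_le _
  · have hc := (of_st G h0).1
    refine le_trans (sum_le_sum fun x _ => ?_)
      (h.rowE (xor_lt hf hc) (by rw [cls_xor f hc, h4]))
    split_ifs with h2
    · have h3 : sh G (f ^^^ x) x = tP (pc ((f ^^^ c) ^^^ x)) (pc (f ^^^ c)) := by
        unfold sh
        rw [h2, h0, xor_xor, h4]
        show shO 4 (pc ((f ^^^ x) ^^^ c)) (((f ^^^ x) ^^^ c) ^^^ x) = _
        rw [← swap f c x, xor_xor]
        rfl
      rw [h3, h4, cls_swap f x hc]
      unfold wg shE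
      cases Nat.beq (cls (f ^^^ x)) 2
      · exact le_of_eq (Nat.zero_sub _)
      · exact le_refl _
    · exact Nat.zero_le _

theorem shO_zero (d : ℕ) : shO 0 d 0 = 672 := rfl

open Classical in
include hG in
theorem second_zero (h : H936.Facts) {f : ℕ} (hf : f < 65536) (h4 : cls f = 0) :
    ∑ x ∈ D, (if G (f ^^^ x) = G f then wg (cls (f ^^^ x)) (cls f) - sh G (f ^^^ x) x else 0) ≤
      0 := by
  have hm := h.mem hf h4
  refine le_of_eq (sum_eq_zero fun x _ => ?_)
  split_ifs with h2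
  · have h3 : sh G (f ^^^ x) x = 672 := by
      unfold sh
      rw [h2, st_some G hG hm rfl, xor_xor, h4]
      show shO 0 (pc ((f ^^^ x) ^^^ f)) (((f ^^^ x) ^^^ f) ^^^ x) = _
      rw [← swap f f x, xor_xor, Nat.xor_self]
      exact shO_zero _
    rw [h3, h4]
    unfold wg
    cases Nat.beq (cls (f ^^^ x)) 2 <;> rfl
  · rfl

theorem sum_nb (F : ℕ → ℕ → ℕ) : ∑ f ∈ range 65536, ∑ x ∈ D, F f x =
    ∑ f ∈ range 65536, ∑ x ∈ D, F (f ^^^ x) x := by
  rw [sum_comm, sum_comm (f := fun f x => F (f ^^^ x) x)]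
  refine sum_congr rfl fun x hx => ?_
  refine sum_nbij' (fun f => f ^^^ x) (fun f => f ^^^ x) ?_ ?_ ?_ ?_ ?_
  · intro f hf
    exact mem_range.2 (xor_lt' (mem_range.1 hf) hx)
  · intro f hf
    exact mem_range.2 (xor_lt' (mem_range.1 hf) hx)
  · intro f _
    exact xor_xor f x
  · intro f _
    exact xor_xor f x
  · intro f _
    simp only [xor_xor]

/-- The bounds for the two ends. -/
def b1 (a : ℕ) : ℕ := if a = 2 then 672 else 0

def b2 (a : ℕ) : ℕ := if a = 4 then 744 else 0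

theorem kg_eq (f : ℕ) : kg (sy f) = b1 (cls f) + b2 (cls f) := by
  unfold kg b1 b2 cls
  by_cases h2 : cl (sy f) = 2
  · rw [h2]
    rfl
  · have h3 : Nat.beq (cl (sy f)) 2 = false := by
      rw [← Bool.not_eq_true, beq_iff]
      exact h2
    rw [h3, if_neg h2]
    by_cases h4 : cl (sy f) = 4
    · rw [h4]
      rfl
    · have h5 : Nat.beq (cl (sy f)) 4 = false := by
        rw [← Bool.not_eq_true, beq_iff]
        exact h4
      rw [h5, if_neg h4]
      rfl

open Classical in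
include hG in
theorem main_le (h : Facts) (h' : H936.Facts) : ∑ f ∈ range 65536, ∑ x ∈ D,
    (if G f = G (f ^^^ x) then wg (cls f) (cls (f ^^^ x)) else 0) ≤ 3413760 := by
  have h1 : ∑ f ∈ range 65536, ∑ x ∈ D,
      (if G f = G (f ^^^ x) then wg (cls f) (cls (f ^^^ x)) else 0) ≤
      ∑ f ∈ range 65536, ∑ x ∈ D,
        (if cls f = 2 then (if G f = G (f ^^^ x) then sh G f x else 0) else 0) +
      ∑ f ∈ range 65536, ∑ x ∈ D, (if G f = G (f ^^^ x) then
        wg (cls f) (cls (f ^^^ x)) - sh G f x else 0) := by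
    rw [← sum_add_distrib]
    refine sum_le_sum fun f _ => ?_
    rw [← sum_add_distrib]
    refine sum_le_sum fun x _ => ?_
    by_cases h2 : cls f = 2
    · rw [if_pos h2]
      split_ifs
      · exact le_add_tsub
      · exact Nat.zero_le _
    · rw [wg_of_ne _ h2]
      split_ifs <;> exact Nat.zero_le _
  refine h1.trans ?_
  rw [← h.k]
  have h2 : ∑ f ∈ range 65536, kg (sy f) = ∑ f ∈ range 65536, b1 (cls f) +
      ∑ f ∈ range 65536, b2 (cls f) := by
    rw [← sum_add_distrib]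
    exact sum_congr rfl fun f _ => kg_eq f
  rw [h2]
  refine Nat.add_le_add (sum_le_sum fun f hf => ?_) ?_
  · unfold b1
    by_cases h3 : cls f = 2
    · simp only [if_pos h3]
      exact first_le G h (mem_range.1 hf) h3
    · simp only [if_neg h3, sum_const_zero, le_refl]
  rw [sum_nb]
  refine sum_le_sum fun f hf => ?_
  simp only [xor_xor]
  unfold b2
  by_cases h3 : cls f = 4
  · rw [if_pos h3]
    exact second_four G hG h (mem_range.1 hf) h3
  · rw [if_neg h3]
    by_cases h4 : cls f = 0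
    · exact second_zero G hG h' (mem_range.1 hf) h4
    · refine le_of_eq (sum_eq_zero fun x _ => ?_)
      rw [wg_of_ne' _ h4 h3]
      split_ifs
      · exact Nat.zero_sub _
      · rfl

end No

end Vale.Agent.P325.H936.Eig
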