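import Vale.Agent.P325.H936.Eig

/-!
# A gadget with completeness seven eighths: checks
-/

namespace Vale.Agent.P325.H936.Eig

set_option maxRecDepth 100000 in
theorem cO_0 : allB cO 13 0 = true := by decide +kernel

set_option maxRecDepth 100000 in
theorem cO_1 : allB cO 13 8192 = true := by decide +kernel

set_option maxRecDepth 100000 in
theorem cO_2 : allB cO 13 16384 = true := by decide +kernel

set_option maxRecDepth 100000 in
theorem cO_3 : allB cO 13 24576 = true := by decide +kernel

end Vale.Agent.P325.H936.Eig
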