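import Vale.Agent.P325.H936.Eig

/-!
# A gadget with completeness seven eighths: checks
-/

namespace Vale.Agent.P325.H936.Eig

set_option maxRecDepth 100000 in
theorem cO_4 : allB cO 13 32768 = true := by decide +kernel

set_option maxRecDepth 100000 in
theorem cO_5 : allB cO 13 40960 = true := by decide +kernel

set_option maxRecDepth 100000 in
theorem cO_6 : allB cO 13 49152 = true := by decide +kernel

set_option maxRecDepth 100000 in
theorem cO_7 : allB cO 13 57344 = true := by decide +kernel

end Vale.Agent.P325.H936.Eig
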