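import Vale.Agent.P325.H936.No

/-!
# A gadget on the functions of four bits: the numbers of edges
-/

namespace Vale.Agent.P325.H936

open Finset

/-- A function with a given syndrome. -/
def rp (s : ℕ) : ℕ := an4 (an3 (an2 (an1 (Nat.shiftLeft s 3))))

/-- The number is a syndrome. -/
def vd (s : ℕ) : Bool := Nat.beq (Nat.land s 34) 0

def ckR (s : ℕ) : Bool := !(vd s) || (Nat.beq (sy (rp s)) s && Nat.ble (rp s) 65535)

def vf (F : ℕ → ℕ) (s : ℕ) : ℕ := bif vd s then F s else 0

/-- The multiplicity, by syndrome. -/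
def wq (q s : ℕ) : ℕ := tW (cl s) (cl (Nat.xor s q))

/-- The two bounds, by syndrome. -/
def kq (s : ℕ) : ℕ := Nat.add (kO (cl s)) (kE (cl s))

set_option maxRecDepth 100000 in
theorem ckR_13 : allB ckR 13 0 = true := by decide +kernel

set_option maxRecDepth 100000 in
theorem vf_one : sumB (vf fun _ => 1) 13 0 = 2048 := by decide +kernel

set_option maxRecDepth 100000 in
theorem vf_kq : sumB (vf kq) 13 0 = 16830240 := by decide +kernel

set_option maxRecDepth 100000 in
theorem vf_0 : sumB (vf (wq 8157)) 13 0 = 1344840 := by decide +kernel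

set_option maxRecDepth 100000 in
theorem vf_1 : sumB (vf (wq 5461)) 13 0 = 1344840 := by decide +kernel

set_option maxRecDepth 100000 in
theorem vf_2 : sumB (vf (wq 6553)) 13 0 = 1344840 := by decide +kernel

set_option maxRecDepth 100000 in
theorem vf_3 : sumB (vf (wq 4369)) 13 0 = 1344840 := by decide +kernel

set_option maxRecDepth 100000 in
theorem vf_4 : sumB (vf (wq 7708)) 13 0 = 1344840 := by decide +kernel

set_option maxRecDepth 100000 in
theorem vf_5 : sumB (vf (wq 5140)) 13 0 = 1344840 := by decide +kernel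

set_option maxRecDepth 100000 in
theorem vf_6 : sumB (vf (wq 6168)) 13 0 = 1344840 := by decide +kernel

set_option maxRecDepth 100000 in
theorem vf_7 : sumB (vf (wq 4112)) 13 0 = 1344840 := by decide +kernel

set_option maxRecDepth 100000 in
theorem vf_8 : sumB (vf (wq 8128)) 13 0 = 1344840 := by decide +kernel

set_option maxRecDepth 100000 in
theorem vf_9 : sumB (vf (wq 5440)) 13 0 = 1344840 := by decide +kernel

set_option maxRecDepth 100000 in
theorem vf_10 : sumB (vf (wq 6528)) 13 0 = 1344840 := by decide +kernel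

set_option maxRecDepth 100000 in
theorem vf_11 : sumB (vf (wq 4352)) 13 0 = 1344840 := by decide +kernel

set_option maxRecDepth 100000 in
theorem vf_12 : sumB (vf (wq 7680)) 13 0 = 1344840 := by decide +kernel

set_option maxRecDepth 100000 in
theorem vf_13 : sumB (vf (wq 5120)) 13 0 = 1344840 := by decide +kernel

set_option maxRecDepth 100000 in
theorem vf_14 : sumB (vf (wq 6144)) 13 0 = 1344840 := by decide +kernel

set_option maxRecDepth 100000 in
theorem vf_15 : sumB (vf (wq 4096)) 13 0 = 1344840 := by decide +kernel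

/-- The syndromes. -/
def V : Finset ℕ := (range 8192).filter fun s => vd s = true

theorem sum_V (F : ℕ → ℕ) : ∑ s ∈ V, F s = sumB (vf F) 13 0 := by
  rw [sumB_spec, V, sum_filter, range_eq_Ico]
  refine sum_congr (by norm_num) fun s _ => ?_
  unfold vf
  cases vd s <;> rfl

theorem card_V : V.card = 2048 := by
  rw [card_eq_sum_ones, sum_V, vf_one]

theorem mem_V {s : ℕ} (h : s ∈ V) : sy (rp s) = s ∧ rp s < 65536 := by
  rw [V, mem_filter, mem_range] at h
  have h1 := allB_spec ckR 13 0 ckR_13 s (Nat.zero_le _) (by omega)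
  unfold ckR at h1
  rw [h.2] at h1
  simp only [Bool.not_true, Bool.false_or, Bool.and_eq_true] at h1
  exact ⟨Nat.eq_of_beq_eq_true h1.1, Nat.lt_succ_of_le (Nat.le_of_ble_eq_true h1.2)⟩

theorem card_cwl : cwl.toFinset.card = 32 := by decide +kernel

theorem fib_aux (V C : Finset ℕ) (N m : ℕ) (hV : ∀ s ∈ V, sy (rp s) = s ∧ rp s < N)
    (hC : ∀ c ∈ C, sy c = 0) (hx : ∀ a < N, ∀ c ∈ C, a ^^^ c < N) (hm : C.card = m)
    (hN : N ≤ V.card * m) (F : ℕ → ℕ) : ∑ f ∈ range N, F (sy f) = m * ∑ s ∈ V, F s := by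
  have hsy : ∀ x ∈ V ×ˢ C, sy (rp x.1 ^^^ x.2) = x.1 := by
    intro x hx
    rw [mem_product] at hx
    rw [sy_xor, hC _ hx.2, Nat.xor_zero, (hV _ hx.1).1]
  have hinj : Set.InjOn (fun x : ℕ × ℕ => rp x.1 ^^^ x.2) (V ×ˢ C : Finset (ℕ × ℕ)) := by
    intro x hx y hy h
    have h1 : rp x.1 ^^^ x.2 = rp y.1 ^^^ y.2 := h
    have h2 : x.1 = y.1 := by rw [← hsy x (mem_coe.1 hx), h1, hsy y (mem_coe.1 hy)]
    refine Prod.ext h2 ?_
    rw [h2] at h1
    exact Nat.xor_right_injective h1
  have himg : (V ×ˢ C).image (fun x : ℕ × ℕ => rp x.1 ^^^ x.2) = range N := by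
    refine eq_of_subset_of_card_le ?_ ?_
    · intro f hf
      rw [mem_image] at hf
      obtain ⟨x, hx', rfl⟩ := hf
      rw [mem_product] at hx'
      exact mem_range.2 (hx _ (hV _ hx'.1).2 _ hx'.2)
    · rw [card_image_of_injOn hinj, card_product, card_range, hm]
      exact hN
  rw [← himg, sum_image hinj, sum_congr rfl fun x hx => congrArg F (hsy x hx), sum_product,
    mul_sum]
  refine sum_congr rfl fun s _ => ?_
  show ∑ _y ∈ C, F s = m * F s
  rw [sum_const, hm, smul_eq_mul]

theorem fib (F : ℕ → ℕ) : ∑ f ∈ range 65536, F (sy f) = 32 * ∑ s ∈ V, F s :=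
  fib_aux V cwl.toFinset 65536 32 (fun _ h => mem_V h)
    (fun c hc => (cw_sy c (List.mem_toFinset.1 hc)).1)
    (fun _ ha _ hc => xor_lt ha (List.mem_toFinset.1 hc)) card_cwl (by rw [card_V]) F

theorem kf_all : ∑ f ∈ range 65536, kf f = 538567680 := by
  have h := fib kq
  rw [sum_V, vf_kq] at h
  exact h

theorem wf_eq (p f : ℕ) : wf p f = wq (sy (2 ^ p)) (sy f) := by
  have h : wf p f = tW (cl (sy f)) (cl (sy (f ^^^ 2 ^ p))) := rfl
  rw [h, sy_xor]
  rfl

theorem wf_of {p q : ℕ} (h : sy (2 ^ p) = q) (hq : sumB (vf (wq q)) 13 0 = 1344840) :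
    ∑ f ∈ range 65536, wf p f = 43034880 := by
  have h1 := fib (wq q)
  rw [sum_V, hq] at h1
  rw [sum_congr rfl fun f _ => wf_eq p f, h, h1]

theorem wf_all : ∀ p < 16, ∑ f ∈ range 65536, wf p f = 43034880 := by
  intro p hp
  interval_cases p
  · exact wf_of (by decide +kernel) vf_0
  · exact wf_of (by decide +kernel) vf_1
  · exact wf_of (by decide +kernel) vf_2
  · exact wf_of (by decide +kernel) vf_3
  · exact wf_of (by decide +kernel) vf_4
  · exact wf_of (by decide +kernel) vf_5
  · exact wf_of (by decide +kernel) vf_6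
  · exact wf_of (by decide +kernel) vf_7
  · exact wf_of (by decide +kernel) vf_8
  · exact wf_of (by decide +kernel) vf_9
  · exact wf_of (by decide +kernel) vf_10
  · exact wf_of (by decide +kernel) vf_11
  · exact wf_of (by decide +kernel) vf_12
  · exact wf_of (by decide +kernel) vf_13
  · exact wf_of (by decide +kernel) vf_14
  · exact wf_of (by decide +kernel) vf_15

end Vale.Agent.P325.H936
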