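import Vale.Agent.P325.H936.CkE0
import Vale.Agent.P325.H936.CkE1
import Vale.Agent.P325.H936.CkM
import Vale.Agent.P325.H936.CkO0
import Vale.Agent.P325.H936.CkO1
import Vale.Agent.P325.H936.Fib

/-!
# A gadget on the functions of four bits: all checks
-/

namespace Vale.Agent.P325.H936

open Finset

theorem ckO_all : ∀ f < 65536, ckO f = true := by
  refine all12 ckO fun i hi => ?_
  interval_cases i
  · exact ckO_0
  · exact ckO_1
  · exact ckO_2
  · exact ckO_3
  · exact ckO_4
  · exact ckO_5
  · exact ckO_6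
  · exact ckO_7
  · exact ckO_8
  · exact ckO_9
  · exact ckO_10
  · exact ckO_11
  · exact ckO_12
  · exact ckO_13
  · exact ckO_14
  · exact ckO_15

theorem ckE_all : ∀ f < 65536, ckE f = true := by
  refine all12 ckE fun i hi => ?_
  interval_cases i
  · exact ckE_0
  · exact ckE_1
  · exact ckE_2
  · exact ckE_3
  · exact ckE_4
  · exact ckE_5
  · exact ckE_6
  · exact ckE_7
  · exact ckE_8
  · exact ckE_9
  · exact ckE_10
  · exact ckE_11
  · exact ckE_12
  · exact ckE_13
  · exact ckE_14
  · exact ckE_15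

theorem ckC_all : ∀ f < 65536, ckC f = true := by
  refine all12 ckC fun i hi => ?_
  interval_cases i
  · exact ckC_0
  · exact ckC_1
  · exact ckC_2
  · exact ckC_3
  · exact ckC_4
  · exact ckC_5
  · exact ckC_6
  · exact ckC_7
  · exact ckC_8
  · exact ckC_9
  · exact ckC_10
  · exact ckC_11
  · exact ckC_12
  · exact ckC_13
  · exact ckC_14
  · exact ckC_15

theorem ckP_all : ∀ f < 65536, ckP f = true := by
  refine all12 ckP fun i hi => ?_
  interval_cases i
  · exact ckP_0
  · exact ckP_1
  · exact ckP_2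
  · exact ckP_3
  · exact ckP_4
  · exact ckP_5
  · exact ckP_6
  · exact ckP_7
  · exact ckP_8
  · exact ckP_9
  · exact ckP_10
  · exact ckP_11
  · exact ckP_12
  · exact ckP_13
  · exact ckP_14
  · exact ckP_15

theorem ckN_all : ∀ s < 8192, ckN s = true := by
  intro s hs
  rcases Nat.lt_or_ge s 4096 with h | h
  · exact allB_spec ckN 12 0 ckN_0 s (by omega) (by omega)
  · exact allB_spec ckN 12 4096 ckN_1 s (by omega) (by omega)

theorem ckM_all : ∀ s < 8192, ckM s = true := by
  intro s hs
  rcases Nat.lt_or_ge s 4096 with h | h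
  · exact allB_spec ckM 12 0 ckM_0 s (by omega) (by omega)
  · exact allB_spec ckM 12 4096 ckM_1 s (by omega) (by omega)

theorem facts : Facts := ⟨ckO_all, ckE_all, ckN_all, ckM_all, ckC_all, ckP_all, kf_all, wf_all⟩

end Vale.Agent.P325.H936
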