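import Vale.Agent.P325.H936.EigA
import Vale.Agent.P325.H936.EigE
import Vale.Agent.P325.H936.EigNo
import Vale.Agent.P325.H936.EigO0
import Vale.Agent.P325.H936.EigO1
import Vale.Agent.P325.H936.Fact

/-!
# A gadget with completeness seven eighths: the two values
-/

namespace Vale.Agent.P325.H936.Eig

open Finset Vale.Agent.P325.Star Vale.Agent.P325.H936

theorem all13 (P : ℕ → Bool) (h : ∀ i < 8, allB P 13 (8192 * i) = true) :
    ∀ x < 65536, P x = true := by
  intro x hx
  exact allB_spec P 13 (8192 * (x / 8192)) (h _ (by omega)) x (by omega) (by omega)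

theorem cO_all : ∀ f < 65536, cO f = true := by
  refine all13 cO fun i hi => ?_
  interval_cases i
  · exact cO_0
  · exact cO_1
  · exact cO_2
  · exact cO_3
  · exact cO_4
  · exact cO_5
  · exact cO_6
  · exact cO_7

theorem cE_all : ∀ f < 65536, cE f = true := by
  refine all13 cE fun i hi => ?_
  interval_cases i
  · exact cE_0
  · exact cE_1
  · exact cE_2
  · exact cE_3
  · exact cE_4
  · exact cE_5
  · exact cE_6
  · exact cE_7

theorem cN_all : ∀ s < 8192, cN s = true := fun s hs =>
  allB_spec cN 13 0 cN_0 s (Nat.zero_le _) (by omega)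

theorem cM_all : ∀ s < 8192, cM s = true := fun s hs =>
  allB_spec cM 13 0 cM_0 s (Nat.zero_le _) (by omega)

theorem kg_all : ∑ f ∈ range 65536, kg (sy f) = 3413760 := by
  have h := fib kg
  rw [sum_V, kg_0] at h
  exact h

theorem wg_eq (x f : ℕ) : wg (cls f) (cls (f ^^^ x)) = wk (sy x) (sy f) := by
  unfold wk cls
  rw [sy_xor]
  cases hb : Nat.beq (cl (sy f)) 2
  · refine wg_of_ne _ ?_
    rw [← Bool.not_eq_true, beq_iff] at hb
    exact hb
  · rw [beq_iff] at hb
    rw [hb]
    rfl

theorem wg_all : ∀ x ∈ dl, ∑ f ∈ range 65536, wg (cls f) (cls (f ^^^ x)) = 49280 := by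
  intro x hx
  have h1 := fib (wk (sy x))
  rw [sum_V, wk_all x hx] at h1
  rw [sum_congr rfl fun f _ => wg_eq x f, h1]

theorem facts : Facts := ⟨cO_all, cE_all, cN_all, cM_all, kg_all, wg_all⟩

/-- The gadget. -/
noncomputable def eig : Gad where
  s := 4
  a := 65536
  E := (List.range 65536).flatMap fun f => dl.flatMap fun x =>
    List.replicate (wg (cls f) (cls (f ^^^ x))) (vx f, vx (f ^^^ x), sgn f + sgn (f ^^^ x))

theorem card_D : D.card = 120 := by
  rw [D, List.toFinset_card_of_nodup dl_nodup]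
  rfl

theorem length_eig : eig.E.length = 5913600 := by
  have h1 : eig.E.length = ∑ f ∈ range 65536, ∑ x ∈ D, wg (cls f) (cls (f ^^^ x)) := by
    simp only [eig, List.length_flatMap, List.length_replicate, lsum, sum_D]
  rw [h1, sum_comm, sum_congr rfl fun x hx => wg_all x (mem_D.1 hx), sum_const, card_D]
  norm_num

theorem num_eig {W : Type} [AddCommGroup W] [Module F W] [DecidableEq W] (c : W)
    (τ : (Fin 4 → F) → W) (g : Fin 65536 → W) :
    eig.num c τ g = ∑ f ∈ range 65536, ∑ x ∈ D,
      if Sum.elim τ g (vx f) + Sum.elim τ g (vx (f ^^^ x)) = (sgn f + sgn (f ^^^ x)) • c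
        then wg (cls f) (cls (f ^^^ x)) else 0 := by
  show List.countP _ eig.E = _
  simp only [eig, List.countP_flatMap, List.countP_replicate, Function.comp_def, lsum, sum_D]
  exact sum_congr rfl fun f _ => sum_congr rfl fun p _ => ite_decide _ _

theorem eig_le {W : Type} [AddCommGroup W] [Module F W] [DecidableEq W] (c : W)
    (τ : (Fin 4 → F) → W) (g : Fin 65536 → W) (hc : c ≠ 0)
    (hτ : ∀ l l', l ≠ l' → τ l' ≠ τ l ∧ τ l' ≠ τ l + c) : eig.num c τ g ≤ 3413760 := by
  classical
  set G : ℕ → W := fun f => Sum.elim τ g (vx f) + sgn f • c with hGdef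
  have h0 : ∀ k ∈ cwl, G k = τ (tl k) + bF k 0 • c := by
    intro k hk
    simp only [hGdef, vx, sgn, cw_cls k hk, if_true, Sum.elim_inl]
  have hF : ∀ e : F, e = 0 ∨ e = 1 := by decide
  have h2 := H111.add_self_W c
  have hG : ∀ k ∈ cwl, ∀ k' ∈ cwl, G k = G k' → k = k' := by
    intro k hk k' hk' he
    rw [h0 k hk, h0 k' hk'] at he
    by_cases ht : tl k = tl k'
    · refine cw_eq k hk k' hk' ht ?_
      rw [ht] at he
      have h3 := add_left_cancel he
      rcases hF (bF k 0) with h4 | h4 <;> rcases hF (bF k' 0) with h5 | h5 <;>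
        rw [h4, h5] at h3 ⊢
      · rw [zero_smul, one_smul] at h3
        exact absurd h3.symm hc
      · rw [zero_smul, one_smul] at h3
        exact absurd h3 hc
    · exfalso
      have h1 := hτ _ _ ht
      rcases hF (bF k 0) with h4 | h4 <;> rcases hF (bF k' 0) with h5 | h5 <;>
        rw [h4, h5] at he <;> simp only [zero_smul, add_zero, one_smul] at he
      · exact h1.1 he.symm
      · refine h1.2 ?_
        rw [he, add_assoc, h2, add_zero]
      · exact h1.2 he.symm
      · exact h1.1 (add_right_cancel he).symm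
  refine le_trans (le_of_eq ?_) (main_le G hG facts H936.facts)
  rw [num_eig]
  refine sum_congr rfl fun f _ => sum_congr rfl fun x _ => ?_
  by_cases hh : G f = G (f ^^^ x)
  · rw [if_pos hh, if_pos ((flip_iff _ _ _ _ _).2 hh)]
  · rw [if_neg hh, if_neg fun h3 => hh ((flip_iff _ _ _ _ _).1 h3)]

theorem eig_no : eig.No (127 / 220) := by
  intro W _ _ _ c τ g hc hτ
  have h3 : eig.num c τ g ≤ 3413760 := eig_le c τ g hc hτ
  have h4 : (eig.num c τ g : ℝ) ≤ 3413760 := by exact_mod_cast h3
  rw [length_eig]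
  push_cast
  linarith

theorem card_pt : ∀ T < 16, (dl.toFinset.filter fun x => bt x T = 0).card = 105 := by
  decide +kernel

theorem bF_xor {f x T : ℕ} (h : bt x T = 0) : bF (f ^^^ x) T = bF f T := by
  unfold bF
  have h1 : bt (f ^^^ x) T = bt f T := by
    rw [bt_eq] at h
    rw [bt_eq, bt_eq, Nat.testBit_xor]
    cases hx : x.testBit T
    · rw [Bool.xor_false]
    · rw [hx] at h
      exact absurd h (by decide)
  rw [h1]

theorem eig_yes : eig.Yes (7 / 8) := by
  intro t
  refine ⟨fun v : Fin 65536 => bF v (pt t), ?_⟩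
  have h0 : ∀ f < 65536, Sum.elim (fun l : Fin 4 → F => l ⬝ᵥ t)
      (fun v : Fin 65536 => bF v (pt t)) (vx f) + sgn f • (1 : F) = bF f (pt t) := by
    intro f hf
    unfold vx sgn
    split_ifs with h1
    · rw [Sum.elim_inl, smul_eq_mul, mul_one]
      exact cw_pt f (H936.facts.mem hf h1) t
    · rw [Sum.elim_inr, zero_smul, add_zero]
      have : ((Fin.ofNat 65536 f : Fin 65536) : ℕ) = f := Nat.mod_eq_of_lt hf
      rw [this]
  have h1 : 5174400 ≤ eig.num (1 : F) (fun l => l ⬝ᵥ t) (fun v : Fin 65536 => bF v (pt t)) := by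
    have h2 := num_eig (1 : F) (fun l => l ⬝ᵥ t) (fun v : Fin 65536 => bF v (pt t))
    refine le_trans ?_ (le_of_eq h2.symm)
    simp only [flip_iff]
    rw [sum_comm]
    calc 5174400 = ∑ x ∈ D.filter fun x => bt x (pt t) = 0,
          ∑ f ∈ range 65536, wg (cls f) (cls (f ^^^ x)) := by
          rw [sum_congr rfl fun x hx => wg_all x (mem_D.1 (mem_filter.1 hx).1), sum_const, D,
            card_pt _ (pt_lt t)]
          norm_num
      _ ≤ ∑ x ∈ D.filter fun x => bt x (pt t) = 0, ∑ f ∈ range 65536, _ := by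
          refine sum_le_sum fun x hx => sum_le_sum fun f hf => ?_
          rw [if_pos]
          rw [h0 f (mem_range.1 hf), h0 (f ^^^ x) (xor_lt' (mem_range.1 hf) (mem_filter.1 hx).1),
            bF_xor (mem_filter.1 hx).2]
      _ ≤ _ := sum_le_sum_of_subset (filter_subset _ _)
  rw [length_eig]
  have h4 : (5174400 : ℝ) ≤
      (eig.num (1 : F) (fun l => l ⬝ᵥ t) (fun v : Fin 65536 => bF v (pt t)) : ℝ) := by
    exact_mod_cast h1
  refine le_trans (le_of_eq ?_) h4
  norm_num

end Vale.Agent.P325.H936.Eig
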