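import Vale.Agent.P325.H936.Eig

/-!
# A gadget with completeness seven eighths: the numbers of edges
-/

namespace Vale.Agent.P325.H936.Eig

set_option maxRecDepth 100000 in
theorem wk_3 : sumB (vf (wk 2696)) 13 0 = 1540 := by decide +kernel

set_option maxRecDepth 100000 in
theorem wk_5 : sumB (vf (wk 1604)) 13 0 = 1540 := by decide +kernel

set_option maxRecDepth 100000 in
theorem wk_9 : sumB (vf (wk 3788)) 13 0 = 1540 := by decide +kernel

set_option maxRecDepth 100000 in
theorem wk_17 : sumB (vf (wk 449)) 13 0 = 1540 := by decide +kernel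

set_option maxRecDepth 100000 in
theorem wk_33 : sumB (vf (wk 3017)) 13 0 = 1540 := by decide +kernel

set_option maxRecDepth 100000 in
theorem wk_65 : sumB (vf (wk 1989)) 13 0 = 1540 := by decide +kernel

set_option maxRecDepth 100000 in
theorem wk_129 : sumB (vf (wk 4045)) 13 0 = 1540 := by decide +kernel

set_option maxRecDepth 100000 in
theorem wk_257 : sumB (vf (wk 29)) 13 0 = 1540 := by decide +kernel

set_option maxRecDepth 100000 in
theorem wk_513 : sumB (vf (wk 2717)) 13 0 = 1540 := by decide +kernel

set_option maxRecDepth 100000 in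
theorem wk_1025 : sumB (vf (wk 1629)) 13 0 = 1540 := by decide +kernel

set_option maxRecDepth 100000 in
theorem wk_2049 : sumB (vf (wk 3805)) 13 0 = 1540 := by decide +kernel

set_option maxRecDepth 100000 in
theorem wk_4097 : sumB (vf (wk 477)) 13 0 = 1540 := by decide +kernel

set_option maxRecDepth 100000 in
theorem wk_8193 : sumB (vf (wk 3037)) 13 0 = 1540 := by decide +kernel

set_option maxRecDepth 100000 in
theorem wk_16385 : sumB (vf (wk 2013)) 13 0 = 1540 := by decide +kernel

set_option maxRecDepth 100000 in
theorem wk_32769 : sumB (vf (wk 4061)) 13 0 = 1540 := by decide +kernel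

set_option maxRecDepth 100000 in
theorem wk_6 : sumB (vf (wk 3276)) 13 0 = 1540 := by decide +kernel

set_option maxRecDepth 100000 in
theorem wk_10 : sumB (vf (wk 1092)) 13 0 = 1540 := by decide +kernel

set_option maxRecDepth 100000 in
theorem wk_18 : sumB (vf (wk 2889)) 13 0 = 1540 := by decide +kernel

set_option maxRecDepth 100000 in
theorem wk_34 : sumB (vf (wk 321)) 13 0 = 1540 := by decide +kernel

set_option maxRecDepth 100000 in
theorem wk_66 : sumB (vf (wk 3405)) 13 0 = 1540 := by decide +kernel

set_option maxRecDepth 100000 in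
theorem wk_130 : sumB (vf (wk 1349)) 13 0 = 1540 := by decide +kernel

set_option maxRecDepth 100000 in
theorem wk_258 : sumB (vf (wk 2709)) 13 0 = 1540 := by decide +kernel

set_option maxRecDepth 100000 in
theorem wk_514 : sumB (vf (wk 21)) 13 0 = 1540 := by decide +kernel

set_option maxRecDepth 100000 in
theorem wk_1026 : sumB (vf (wk 3285)) 13 0 = 1540 := by decide +kernel

set_option maxRecDepth 100000 in
theorem wk_2050 : sumB (vf (wk 1109)) 13 0 = 1540 := by decide +kernel

set_option maxRecDepth 100000 in
theorem wk_4098 : sumB (vf (wk 2901)) 13 0 = 1540 := by decide +kernel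

set_option maxRecDepth 100000 in
theorem wk_8194 : sumB (vf (wk 341)) 13 0 = 1540 := by decide +kernel

set_option maxRecDepth 100000 in
theorem wk_16386 : sumB (vf (wk 3413)) 13 0 = 1540 := by decide +kernel

set_option maxRecDepth 100000 in
theorem wk_32770 : sumB (vf (wk 1365)) 13 0 = 1540 := by decide +kernel

set_option maxRecDepth 100000 in
theorem wk_12 : sumB (vf (wk 2184)) 13 0 = 1540 := by decide +kernel

set_option maxRecDepth 100000 in
theorem wk_20 : sumB (vf (wk 1925)) 13 0 = 1540 := by decide +kernel

set_option maxRecDepth 100000 in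
theorem wk_36 : sumB (vf (wk 3469)) 13 0 = 1540 := by decide +kernel

set_option maxRecDepth 100000 in
theorem wk_68 : sumB (vf (wk 385)) 13 0 = 1540 := by decide +kernel

set_option maxRecDepth 100000 in
theorem wk_132 : sumB (vf (wk 2441)) 13 0 = 1540 := by decide +kernel

set_option maxRecDepth 100000 in
theorem wk_260 : sumB (vf (wk 1625)) 13 0 = 1540 := by decide +kernel

set_option maxRecDepth 100000 in
theorem wk_516 : sumB (vf (wk 3289)) 13 0 = 1540 := by decide +kernel

set_option maxRecDepth 100000 in
theorem wk_1028 : sumB (vf (wk 25)) 13 0 = 1540 := by decide +kernel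

set_option maxRecDepth 100000 in
theorem wk_2052 : sumB (vf (wk 2201)) 13 0 = 1540 := by decide +kernel

set_option maxRecDepth 100000 in
theorem wk_4100 : sumB (vf (wk 1945)) 13 0 = 1540 := by decide +kernel

set_option maxRecDepth 100000 in
theorem wk_8196 : sumB (vf (wk 3481)) 13 0 = 1540 := by decide +kernel

set_option maxRecDepth 100000 in
theorem wk_16388 : sumB (vf (wk 409)) 13 0 = 1540 := by decide +kernel

set_option maxRecDepth 100000 in
theorem wk_32772 : sumB (vf (wk 2457)) 13 0 = 1540 := by decide +kernel

set_option maxRecDepth 100000 in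
theorem wk_24 : sumB (vf (wk 3853)) 13 0 = 1540 := by decide +kernel

set_option maxRecDepth 100000 in
theorem wk_40 : sumB (vf (wk 1285)) 13 0 = 1540 := by decide +kernel

set_option maxRecDepth 100000 in
theorem wk_72 : sumB (vf (wk 2313)) 13 0 = 1540 := by decide +kernel

set_option maxRecDepth 100000 in
theorem wk_136 : sumB (vf (wk 257)) 13 0 = 1540 := by decide +kernel

set_option maxRecDepth 100000 in
theorem wk_264 : sumB (vf (wk 3793)) 13 0 = 1540 := by decide +kernel

set_option maxRecDepth 100000 in
theorem wk_520 : sumB (vf (wk 1105)) 13 0 = 1540 := by decide +kernel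

set_option maxRecDepth 100000 in
theorem wk_1032 : sumB (vf (wk 2193)) 13 0 = 1540 := by decide +kernel

set_option maxRecDepth 100000 in
theorem wk_2056 : sumB (vf (wk 17)) 13 0 = 1540 := by decide +kernel

set_option maxRecDepth 100000 in
theorem wk_4104 : sumB (vf (wk 3857)) 13 0 = 1540 := by decide +kernel

set_option maxRecDepth 100000 in
theorem wk_8200 : sumB (vf (wk 1297)) 13 0 = 1540 := by decide +kernel

set_option maxRecDepth 100000 in
theorem wk_16392 : sumB (vf (wk 2321)) 13 0 = 1540 := by decide +kernel

set_option maxRecDepth 100000 in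
theorem wk_32776 : sumB (vf (wk 273)) 13 0 = 1540 := by decide +kernel

set_option maxRecDepth 100000 in
theorem wk_48 : sumB (vf (wk 2568)) 13 0 = 1540 := by decide +kernel

set_option maxRecDepth 100000 in
theorem wk_80 : sumB (vf (wk 1540)) 13 0 = 1540 := by decide +kernel

set_option maxRecDepth 100000 in
theorem wk_144 : sumB (vf (wk 3596)) 13 0 = 1540 := by decide +kernel

set_option maxRecDepth 100000 in
theorem wk_272 : sumB (vf (wk 476)) 13 0 = 1540 := by decide +kernel

set_option maxRecDepth 100000 in
theorem wk_528 : sumB (vf (wk 2908)) 13 0 = 1540 := by decide +kernel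

set_option maxRecDepth 100000 in
theorem wk_1040 : sumB (vf (wk 1948)) 13 0 = 1540 := by decide +kernel

set_option maxRecDepth 100000 in
theorem wk_2064 : sumB (vf (wk 3868)) 13 0 = 1540 := by decide +kernel

set_option maxRecDepth 100000 in
theorem wk_4112 : sumB (vf (wk 28)) 13 0 = 1540 := by decide +kernel

set_option maxRecDepth 100000 in
theorem wk_8208 : sumB (vf (wk 2588)) 13 0 = 1540 := by decide +kernel

set_option maxRecDepth 100000 in
theorem wk_16400 : sumB (vf (wk 1564)) 13 0 = 1540 := by decide +kernel

set_option maxRecDepth 100000 in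
theorem wk_32784 : sumB (vf (wk 3612)) 13 0 = 1540 := by decide +kernel

set_option maxRecDepth 100000 in
theorem wk_96 : sumB (vf (wk 3084)) 13 0 = 1540 := by decide +kernel

set_option maxRecDepth 100000 in
theorem wk_160 : sumB (vf (wk 1028)) 13 0 = 1540 := by decide +kernel

set_option maxRecDepth 100000 in
theorem wk_288 : sumB (vf (wk 3028)) 13 0 = 1540 := by decide +kernel

set_option maxRecDepth 100000 in
theorem wk_544 : sumB (vf (wk 340)) 13 0 = 1540 := by decide +kernel

set_option maxRecDepth 100000 in
theorem wk_1056 : sumB (vf (wk 3476)) 13 0 = 1540 := by decide +kernel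

set_option maxRecDepth 100000 in
theorem wk_2080 : sumB (vf (wk 1300)) 13 0 = 1540 := by decide +kernel

set_option maxRecDepth 100000 in
theorem wk_4128 : sumB (vf (wk 2580)) 13 0 = 1540 := by decide +kernel

set_option maxRecDepth 100000 in
theorem wk_8224 : sumB (vf (wk 20)) 13 0 = 1540 := by decide +kernel

set_option maxRecDepth 100000 in
theorem wk_16416 : sumB (vf (wk 3092)) 13 0 = 1540 := by decide +kernel

set_option maxRecDepth 100000 in
theorem wk_32800 : sumB (vf (wk 1044)) 13 0 = 1540 := by decide +kernel

set_option maxRecDepth 100000 in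
theorem wk_192 : sumB (vf (wk 2056)) 13 0 = 1540 := by decide +kernel

set_option maxRecDepth 100000 in
theorem wk_320 : sumB (vf (wk 2008)) 13 0 = 1540 := by decide +kernel

set_option maxRecDepth 100000 in
theorem wk_576 : sumB (vf (wk 3416)) 13 0 = 1540 := by decide +kernel

set_option maxRecDepth 100000 in
theorem wk_1088 : sumB (vf (wk 408)) 13 0 = 1540 := by decide +kernel

set_option maxRecDepth 100000 in
theorem wk_2112 : sumB (vf (wk 2328)) 13 0 = 1540 := by decide +kernel

set_option maxRecDepth 100000 in
theorem wk_4160 : sumB (vf (wk 1560)) 13 0 = 1540 := by decide +kernel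

set_option maxRecDepth 100000 in
theorem wk_8256 : sumB (vf (wk 3096)) 13 0 = 1540 := by decide +kernel

set_option maxRecDepth 100000 in
theorem wk_16448 : sumB (vf (wk 24)) 13 0 = 1540 := by decide +kernel

set_option maxRecDepth 100000 in
theorem wk_32832 : sumB (vf (wk 2072)) 13 0 = 1540 := by decide +kernel

set_option maxRecDepth 100000 in
theorem wk_384 : sumB (vf (wk 4048)) 13 0 = 1540 := by decide +kernel

set_option maxRecDepth 100000 in
theorem wk_640 : sumB (vf (wk 1360)) 13 0 = 1540 := by decide +kernel

set_option maxRecDepth 100000 in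
theorem wk_1152 : sumB (vf (wk 2448)) 13 0 = 1540 := by decide +kernel

set_option maxRecDepth 100000 in
theorem wk_2176 : sumB (vf (wk 272)) 13 0 = 1540 := by decide +kernel

set_option maxRecDepth 100000 in
theorem wk_4224 : sumB (vf (wk 3600)) 13 0 = 1540 := by decide +kernel

set_option maxRecDepth 100000 in
theorem wk_8320 : sumB (vf (wk 1040)) 13 0 = 1540 := by decide +kernel

set_option maxRecDepth 100000 in
theorem wk_16512 : sumB (vf (wk 2064)) 13 0 = 1540 := by decide +kernel

set_option maxRecDepth 100000 in
theorem wk_32896 : sumB (vf (wk 16)) 13 0 = 1540 := by decide +kernel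

set_option maxRecDepth 100000 in
theorem wk_768 : sumB (vf (wk 2688)) 13 0 = 1540 := by decide +kernel

set_option maxRecDepth 100000 in
theorem wk_1280 : sumB (vf (wk 1600)) 13 0 = 1540 := by decide +kernel

set_option maxRecDepth 100000 in
theorem wk_2304 : sumB (vf (wk 3776)) 13 0 = 1540 := by decide +kernel

set_option maxRecDepth 100000 in
theorem wk_4352 : sumB (vf (wk 448)) 13 0 = 1540 := by decide +kernel

set_option maxRecDepth 100000 in
theorem wk_8448 : sumB (vf (wk 3008)) 13 0 = 1540 := by decide +kernel

set_option maxRecDepth 100000 in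
theorem wk_16640 : sumB (vf (wk 1984)) 13 0 = 1540 := by decide +kernel

set_option maxRecDepth 100000 in
theorem wk_33024 : sumB (vf (wk 4032)) 13 0 = 1540 := by decide +kernel

set_option maxRecDepth 100000 in
theorem wk_1536 : sumB (vf (wk 3264)) 13 0 = 1540 := by decide +kernel

set_option maxRecDepth 100000 in
theorem wk_2560 : sumB (vf (wk 1088)) 13 0 = 1540 := by decide +kernel

set_option maxRecDepth 100000 in
theorem wk_4608 : sumB (vf (wk 2880)) 13 0 = 1540 := by decide +kernel

set_option maxRecDepth 100000 in
theorem wk_8704 : sumB (vf (wk 320)) 13 0 = 1540 := by decide +kernel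

set_option maxRecDepth 100000 in
theorem wk_16896 : sumB (vf (wk 3392)) 13 0 = 1540 := by decide +kernel

set_option maxRecDepth 100000 in
theorem wk_33280 : sumB (vf (wk 1344)) 13 0 = 1540 := by decide +kernel

set_option maxRecDepth 100000 in
theorem wk_3072 : sumB (vf (wk 2176)) 13 0 = 1540 := by decide +kernel

set_option maxRecDepth 100000 in
theorem wk_5120 : sumB (vf (wk 1920)) 13 0 = 1540 := by decide +kernel

set_option maxRecDepth 100000 in
theorem wk_9216 : sumB (vf (wk 3456)) 13 0 = 1540 := by decide +kernel

set_option maxRecDepth 100000 in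
theorem wk_17408 : sumB (vf (wk 384)) 13 0 = 1540 := by decide +kernel

set_option maxRecDepth 100000 in
theorem wk_33792 : sumB (vf (wk 2432)) 13 0 = 1540 := by decide +kernel

set_option maxRecDepth 100000 in
theorem wk_6144 : sumB (vf (wk 3840)) 13 0 = 1540 := by decide +kernel

set_option maxRecDepth 100000 in
theorem wk_10240 : sumB (vf (wk 1280)) 13 0 = 1540 := by decide +kernel

set_option maxRecDepth 100000 in
theorem wk_18432 : sumB (vf (wk 2304)) 13 0 = 1540 := by decide +kernel

set_option maxRecDepth 100000 in
theorem wk_34816 : sumB (vf (wk 256)) 13 0 = 1540 := by decide +kernel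

set_option maxRecDepth 100000 in
theorem wk_12288 : sumB (vf (wk 2560)) 13 0 = 1540 := by decide +kernel

set_option maxRecDepth 100000 in
theorem wk_20480 : sumB (vf (wk 1536)) 13 0 = 1540 := by decide +kernel

set_option maxRecDepth 100000 in
theorem wk_36864 : sumB (vf (wk 3584)) 13 0 = 1540 := by decide +kernel

set_option maxRecDepth 100000 in
theorem wk_24576 : sumB (vf (wk 3072)) 13 0 = 1540 := by decide +kernel

set_option maxRecDepth 100000 in
theorem wk_40960 : sumB (vf (wk 1024)) 13 0 = 1540 := by decide +kernel

set_option maxRecDepth 100000 in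
theorem wk_49152 : sumB (vf (wk 2048)) 13 0 = 1540 := by decide +kernel

theorem sy_3 : sy 3 = 2696 := by decide +kernel

theorem sy_5 : sy 5 = 1604 := by decide +kernel

theorem sy_9 : sy 9 = 3788 := by decide +kernel

theorem sy_17 : sy 17 = 449 := by decide +kernel

theorem sy_33 : sy 33 = 3017 := by decide +kernel

theorem sy_65 : sy 65 = 1989 := by decide +kernel

theorem sy_129 : sy 129 = 4045 := by decide +kernel

theorem sy_257 : sy 257 = 29 := by decide +kernel

theorem sy_513 : sy 513 = 2717 := by decide +kernel

theorem sy_1025 : sy 1025 = 1629 := by decide +kernel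

theorem sy_2049 : sy 2049 = 3805 := by decide +kernel

theorem sy_4097 : sy 4097 = 477 := by decide +kernel

theorem sy_8193 : sy 8193 = 3037 := by decide +kernel

theorem sy_16385 : sy 16385 = 2013 := by decide +kernel

theorem sy_32769 : sy 32769 = 4061 := by decide +kernel

theorem sy_6 : sy 6 = 3276 := by decide +kernel

theorem sy_10 : sy 10 = 1092 := by decide +kernel

theorem sy_18 : sy 18 = 2889 := by decide +kernel

theorem sy_34 : sy 34 = 321 := by decide +kernel

theorem sy_66 : sy 66 = 3405 := by decide +kernel

theorem sy_130 : sy 130 = 1349 := by decide +kernel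

theorem sy_258 : sy 258 = 2709 := by decide +kernel

theorem sy_514 : sy 514 = 21 := by decide +kernel

theorem sy_1026 : sy 1026 = 3285 := by decide +kernel

theorem sy_2050 : sy 2050 = 1109 := by decide +kernel

theorem sy_4098 : sy 4098 = 2901 := by decide +kernel

theorem sy_8194 : sy 8194 = 341 := by decide +kernel

theorem sy_16386 : sy 16386 = 3413 := by decide +kernel

theorem sy_32770 : sy 32770 = 1365 := by decide +kernel

theorem sy_12 : sy 12 = 2184 := by decide +kernel

theorem sy_20 : sy 20 = 1925 := by decide +kernel

theorem sy_36 : sy 36 = 3469 := by decide +kernel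

theorem sy_68 : sy 68 = 385 := by decide +kernel

theorem sy_132 : sy 132 = 2441 := by decide +kernel

theorem sy_260 : sy 260 = 1625 := by decide +kernel

theorem sy_516 : sy 516 = 3289 := by decide +kernel

theorem sy_1028 : sy 1028 = 25 := by decide +kernel

theorem sy_2052 : sy 2052 = 2201 := by decide +kernel

theorem sy_4100 : sy 4100 = 1945 := by decide +kernel

theorem sy_8196 : sy 8196 = 3481 := by decide +kernel

theorem sy_16388 : sy 16388 = 409 := by decide +kernel

theorem sy_32772 : sy 32772 = 2457 := by decide +kernel

theorem sy_24 : sy 24 = 3853 := by decide +kernel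

theorem sy_40 : sy 40 = 1285 := by decide +kernel

theorem sy_72 : sy 72 = 2313 := by decide +kernel

theorem sy_136 : sy 136 = 257 := by decide +kernel

theorem sy_264 : sy 264 = 3793 := by decide +kernel

theorem sy_520 : sy 520 = 1105 := by decide +kernel

theorem sy_1032 : sy 1032 = 2193 := by decide +kernel

theorem sy_2056 : sy 2056 = 17 := by decide +kernel

theorem sy_4104 : sy 4104 = 3857 := by decide +kernel

theorem sy_8200 : sy 8200 = 1297 := by decide +kernel

theorem sy_16392 : sy 16392 = 2321 := by decide +kernel

theorem sy_32776 : sy 32776 = 273 := by decide +kernel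

theorem sy_48 : sy 48 = 2568 := by decide +kernel

theorem sy_80 : sy 80 = 1540 := by decide +kernel

theorem sy_144 : sy 144 = 3596 := by decide +kernel

theorem sy_272 : sy 272 = 476 := by decide +kernel

theorem sy_528 : sy 528 = 2908 := by decide +kernel

theorem sy_1040 : sy 1040 = 1948 := by decide +kernel

theorem sy_2064 : sy 2064 = 3868 := by decide +kernel

theorem sy_4112 : sy 4112 = 28 := by decide +kernel

theorem sy_8208 : sy 8208 = 2588 := by decide +kernel

theorem sy_16400 : sy 16400 = 1564 := by decide +kernel

theorem sy_32784 : sy 32784 = 3612 := by decide +kernel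

theorem sy_96 : sy 96 = 3084 := by decide +kernel

theorem sy_160 : sy 160 = 1028 := by decide +kernel

theorem sy_288 : sy 288 = 3028 := by decide +kernel

theorem sy_544 : sy 544 = 340 := by decide +kernel

theorem sy_1056 : sy 1056 = 3476 := by decide +kernel

theorem sy_2080 : sy 2080 = 1300 := by decide +kernel

theorem sy_4128 : sy 4128 = 2580 := by decide +kernel

theorem sy_8224 : sy 8224 = 20 := by decide +kernel

theorem sy_16416 : sy 16416 = 3092 := by decide +kernel

theorem sy_32800 : sy 32800 = 1044 := by decide +kernel

theorem sy_192 : sy 192 = 2056 := by decide +kernel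

theorem sy_320 : sy 320 = 2008 := by decide +kernel

theorem sy_576 : sy 576 = 3416 := by decide +kernel

theorem sy_1088 : sy 1088 = 408 := by decide +kernel

theorem sy_2112 : sy 2112 = 2328 := by decide +kernel

theorem sy_4160 : sy 4160 = 1560 := by decide +kernel

theorem sy_8256 : sy 8256 = 3096 := by decide +kernel

theorem sy_16448 : sy 16448 = 24 := by decide +kernel

theorem sy_32832 : sy 32832 = 2072 := by decide +kernel

theorem sy_384 : sy 384 = 4048 := by decide +kernel

theorem sy_640 : sy 640 = 1360 := by decide +kernel

theorem sy_1152 : sy 1152 = 2448 := by decide +kernel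

theorem sy_2176 : sy 2176 = 272 := by decide +kernel

theorem sy_4224 : sy 4224 = 3600 := by decide +kernel

theorem sy_8320 : sy 8320 = 1040 := by decide +kernel

theorem sy_16512 : sy 16512 = 2064 := by decide +kernel

theorem sy_32896 : sy 32896 = 16 := by decide +kernel

theorem sy_768 : sy 768 = 2688 := by decide +kernel

theorem sy_1280 : sy 1280 = 1600 := by decide +kernel

theorem sy_2304 : sy 2304 = 3776 := by decide +kernel

theorem sy_4352 : sy 4352 = 448 := by decide +kernel

theorem sy_8448 : sy 8448 = 3008 := by decide +kernel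

theorem sy_16640 : sy 16640 = 1984 := by decide +kernel

theorem sy_33024 : sy 33024 = 4032 := by decide +kernel

theorem sy_1536 : sy 1536 = 3264 := by decide +kernel

theorem sy_2560 : sy 2560 = 1088 := by decide +kernel

theorem sy_4608 : sy 4608 = 2880 := by decide +kernel

theorem sy_8704 : sy 8704 = 320 := by decide +kernel

theorem sy_16896 : sy 16896 = 3392 := by decide +kernel

theorem sy_33280 : sy 33280 = 1344 := by decide +kernel

theorem sy_3072 : sy 3072 = 2176 := by decide +kernel

theorem sy_5120 : sy 5120 = 1920 := by decide +kernel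

theorem sy_9216 : sy 9216 = 3456 := by decide +kernel

theorem sy_17408 : sy 17408 = 384 := by decide +kernel

theorem sy_33792 : sy 33792 = 2432 := by decide +kernel

theorem sy_6144 : sy 6144 = 3840 := by decide +kernel

theorem sy_10240 : sy 10240 = 1280 := by decide +kernel

theorem sy_18432 : sy 18432 = 2304 := by decide +kernel

theorem sy_34816 : sy 34816 = 256 := by decide +kernel

theorem sy_12288 : sy 12288 = 2560 := by decide +kernel

theorem sy_20480 : sy 20480 = 1536 := by decide +kernel

theorem sy_36864 : sy 36864 = 3584 := by decide +kernel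

theorem sy_24576 : sy 24576 = 3072 := by decide +kernel

theorem sy_40960 : sy 40960 = 1024 := by decide +kernel

theorem sy_49152 : sy 49152 = 2048 := by decide +kernel

end Vale.Agent.P325.H936.Eig
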