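import Mathlib.Tactic
import Vale.Agent.P325.H936.Tab

/-!
# A gadget on the functions of four bits: lemmas
-/

namespace Vale.Agent.P325.H936

open Finset

theorem allB_spec (P : ℕ → Bool) : ∀ n a, allB P n a = true → ∀ x, a ≤ x → x < a + 2 ^ n →
    P x = true
  | 0, a, h, x, h1, h2 => by
    have : x = a := by omega
    rw [this]
    exact h
  | n + 1, a, h, x, h1, h2 => by
    have h' : (allB P n a && allB P n (a + 2 ^ n)) = true := h
    rw [Bool.and_eq_true] at h'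
    by_cases h3 : x < a + 2 ^ n
    · exact allB_spec P n a h'.1 x h1 h3
    · refine allB_spec P n _ h'.2 x (by omega) ?_
      rw [pow_succ] at h2
      omega

theorem sumB_spec (f : ℕ → ℕ) : ∀ n a, sumB f n a = ∑ x ∈ Ico a (a + 2 ^ n), f x
  | 0, a => by
    show f a = _
    simp
  | n + 1, a => by
    have h' : sumB f (n + 1) a = sumB f n a + sumB f n (a + 2 ^ n) := rfl
    rw [h', sumB_spec f n a, sumB_spec f n (a + 2 ^ n),
      sum_Ico_consecutive f (Nat.le_add_right _ _) (Nat.le_add_right _ _)]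
    congr 2
    rw [pow_succ]
    ring

theorem all12 (P : ℕ → Bool) (h : ∀ i < 16, allB P 12 (4096 * i) = true) :
    ∀ x < 65536, P x = true := by
  intro x hx
  exact allB_spec P 12 (4096 * (x / 4096)) (h _ (by omega)) x (by omega) (by omega)

theorem an1_xor (a b : ℕ) : an1 (a ^^^ b) = an1 a ^^^ an1 b := by
  show (a ^^^ b) ^^^ (((a ^^^ b) <<< 1) &&& 43690) =
    (a ^^^ ((a <<< 1) &&& 43690)) ^^^ (b ^^^ ((b <<< 1) &&& 43690))
  refine Nat.eq_of_testBit_eq fun i => ?_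
  simp only [Nat.testBit_xor, Nat.testBit_and, Nat.testBit_shiftLeft]
  cases a.testBit i <;> cases b.testBit i <;> cases a.testBit (i - 1) <;>
    cases b.testBit (i - 1) <;> cases decide (i ≥ 1) <;> cases (43690 : ℕ).testBit i <;> rfl

theorem an2_xor (a b : ℕ) : an2 (a ^^^ b) = an2 a ^^^ an2 b := by
  show (a ^^^ b) ^^^ (((a ^^^ b) <<< 2) &&& 52428) =
    (a ^^^ ((a <<< 2) &&& 52428)) ^^^ (b ^^^ ((b <<< 2) &&& 52428))
  refine Nat.eq_of_testBit_eq fun i => ?_
  simp only [Nat.testBit_xor, Nat.testBit_and, Nat.testBit_shiftLeft]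
  cases a.testBit i <;> cases b.testBit i <;> cases a.testBit (i - 2) <;>
    cases b.testBit (i - 2) <;> cases decide (i ≥ 2) <;> cases (52428 : ℕ).testBit i <;> rfl

theorem an3_xor (a b : ℕ) : an3 (a ^^^ b) = an3 a ^^^ an3 b := by
  show (a ^^^ b) ^^^ (((a ^^^ b) <<< 4) &&& 61680) =
    (a ^^^ ((a <<< 4) &&& 61680)) ^^^ (b ^^^ ((b <<< 4) &&& 61680))
  refine Nat.eq_of_testBit_eq fun i => ?_
  simp only [Nat.testBit_xor, Nat.testBit_and, Nat.testBit_shiftLeft]
  cases a.testBit i <;> cases b.testBit i <;> cases a.testBit (i - 4) <;>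
    cases b.testBit (i - 4) <;> cases decide (i ≥ 4) <;> cases (61680 : ℕ).testBit i <;> rfl

theorem an4_xor (a b : ℕ) : an4 (a ^^^ b) = an4 a ^^^ an4 b := by
  show (a ^^^ b) ^^^ (((a ^^^ b) <<< 8) &&& 65280) =
    (a ^^^ ((a <<< 8) &&& 65280)) ^^^ (b ^^^ ((b <<< 8) &&& 65280))
  refine Nat.eq_of_testBit_eq fun i => ?_
  simp only [Nat.testBit_xor, Nat.testBit_and, Nat.testBit_shiftLeft]
  cases a.testBit i <;> cases b.testBit i <;> cases a.testBit (i - 8) <;>
    cases b.testBit (i - 8) <;> cases decide (i ≥ 8) <;> cases (65280 : ℕ).testBit i <;> rfl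

theorem sy_xor (a b : ℕ) : sy (a ^^^ b) = sy a ^^^ sy b := by
  have h : ∀ x, sy x = (an4 (an3 (an2 (an1 x))) &&& 65256) >>> 3 := fun _ => rfl
  rw [h, h, h, an1_xor, an2_xor, an3_xor, an4_xor]
  refine Nat.eq_of_testBit_eq fun i => ?_
  simp only [Nat.testBit_xor, Nat.testBit_and, Nat.testBit_shiftRight]
  cases (an4 (an3 (an2 (an1 a)))).testBit (3 + i) <;>
    cases (an4 (an3 (an2 (an1 b)))).testBit (3 + i) <;> cases (65256 : ℕ).testBit (3 + i) <;> rfl

theorem sy_lt (a : ℕ) : sy a < 8192 := by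
  have h : sy a = (an4 (an3 (an2 (an1 a))) &&& 65256) >>> 3 := rfl
  rw [h, Nat.shiftRight_eq_div_pow]
  have h1 : an4 (an3 (an2 (an1 a))) &&& 65256 ≤ 65256 := Nat.and_le_right
  omega

/-- The neighbour. -/
abbrev nb (f p : ℕ) : ℕ := f ^^^ 2 ^ p

theorem nb_nb (f p : ℕ) : nb (nb f p) p = f := by
  unfold nb
  rw [Nat.xor_assoc, Nat.xor_self, Nat.xor_zero]

theorem nb_lt {f p : ℕ} (hf : f < 65536) (hp : p < 16) : nb f p < 65536 := by
  have h : (65536 : ℕ) = 2 ^ 16 := by norm_num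
  rw [h] at hf ⊢
  exact Nat.xor_lt_two_pow hf (Nat.pow_lt_pow_right (by norm_num) hp)

theorem rowO_eq (g i : ℕ) : rowO g (sy g) (pc g) i =
    ∑ p ∈ range 16, tS i (cls (nb g p)) (mm g (pc g) p) := by
  simp only [sum_range_succ, range_zero, sum_empty, cls, nb, sy_xor]
  rfl

theorem rowE_eq (g b : ℕ) : rowE g (sy g) (pc g) b =
    ∑ p ∈ range 16, eS b (cls (nb g p)) (mm g (pc g) p) := by
  simp only [sum_range_succ, range_zero, sum_empty, cls, nb, sy_xor]
  rfl

theorem rowN_eq (g a : ℕ) : rowN (sy g) a = ∑ p ∈ range 16, tN a (cls (nb g p)) := by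
  simp only [sum_range_succ, range_zero, sum_empty, cls, nb, sy_xor]
  rfl

theorem rowM_eq (g b : ℕ) : rowM (sy g) b = ∑ p ∈ range 16, eN b (cls (nb g p)) := by
  simp only [sum_range_succ, range_zero, sum_empty, cls, nb, sy_xor]
  rfl

theorem bt_eq (f p : ℕ) : bt f p = (f.testBit p).toNat := by
  show (f >>> p) &&& 1 = _
  rw [Nat.testBit]
  rcases h : (f >>> p) &&& 1 with _ | n
  · rw [Nat.and_comm, h]
    rfl
  · have h1 : (f >>> p) &&& 1 ≤ 1 := Nat.and_le_right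
    have h2 : n = 0 := by omega
    subst h2
    rw [Nat.and_comm, h]
    rfl

theorem bt_nb (f : ℕ) {p i : ℕ} (h : i ≠ p) : bt (nb f p) i = bt f i := by
  rw [bt_eq, bt_eq, Nat.testBit_xor, Nat.testBit_two_pow_of_ne (Ne.symm h), Bool.xor_false]

theorem mm_eq (g : ℕ) (hg : pc g = ∑ i ∈ range 16, bt g i) {p : ℕ} (hp : p < 16) :
    mm g (pc g) p = ∑ i ∈ (range 16).erase p, bt g i := by
  show pc g - bt g p = _
  rw [hg, ← add_sum_erase (range 16) (fun i => bt g i) (mem_range.2 hp)]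
  exact Nat.add_sub_cancel_left _ _

theorem mm_nb (g : ℕ) {p : ℕ} (hp : p < 16) (hg : pc g = ∑ i ∈ range 16, bt g i)
    (hg' : pc (nb g p) = ∑ i ∈ range 16, bt (nb g p) i) :
    mm (nb g p) (pc (nb g p)) p = mm g (pc g) p := by
  rw [mm_eq g hg hp, mm_eq _ hg' hp]
  exact sum_congr rfl fun i hi => bt_nb g (ne_of_mem_erase hi)

end Vale.Agent.P325.H936
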