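import Vale.Agent.P325.H111.GadC
import Vale.Agent.P325.H936.Lem

/-!
# A gadget on the functions of four bits: soundness
-/

namespace Vale.Agent.P325.H936

open Finset Vale.Agent.P325.Star

/-- All checks on the tables. -/
structure Facts : Prop where
  o : ∀ f < 65536, ckO f = true
  e : ∀ f < 65536, ckE f = true
  n : ∀ s < 8192, ckN s = true
  m : ∀ s < 8192, ckM s = true
  c : ∀ f < 65536, ckC f = true
  p : ∀ f < 65536, ckP f = true
  k : ∑ f ∈ range 65536, kf f = 538567680
  w : ∀ p < 16, ∑ f ∈ range 65536, wf p f = 43034880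

/-- The value at a point. -/
def bF (f p : ℕ) : F := if bt f p = 1 then 1 else 0

/-- The linear function of a codeword. -/
def tl (f : ℕ) (i : Fin 4) : F := bF f (2 ^ (i : ℕ)) + bF f 0

/-- The sign of a codeword. -/
def sgn (f : ℕ) : F := if cls f = 0 then bF f 0 else 0

theorem cw_sy : ∀ c ∈ cwl, sy c = 0 ∧ c < 65536 := by decide +kernel

theorem cw_cls : ∀ c ∈ cwl, cls c = 0 := by decide +kernel

theorem cw_eq : ∀ c ∈ cwl, ∀ c' ∈ cwl, tl c = tl c' → bF c 0 = bF c' 0 → c = c' := by
  decide +kernel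

theorem cw_end : ∀ p < 16, eS 0 (cls (nb 0 p)) (mm 0 (pc 0) p) = 0 := by decide +kernel

theorem Facts.mem (h : Facts) {f : ℕ} (hf : f < 65536) (h0 : cls f = 0) : f ∈ cwl := by
  have h1 := h.c f hf
  unfold ckC at h1
  have h2 : Nat.beq (cl (sy f)) 0 = true := by
    have : cl (sy f) = 0 := h0
    rw [this]
    rfl
  rw [h2] at h1
  simpa using h1

theorem Facts.pc (h : Facts) {f : ℕ} (hf : f < 65536) :
    pc f = ∑ i ∈ range 16, bt f i := by
  have h1 := h.p f hf
  unfold ckP at h1
  have h2 := Nat.eq_of_beq_eq_true h1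
  rw [h2]
  simp only [sum_range_succ, range_zero, sum_empty]
  rfl

theorem cls_xor (f : ℕ) {c : ℕ} (hc : c ∈ cwl) : cls (f ^^^ c) = cls f := by
  unfold cls
  rw [sy_xor, (cw_sy c hc).1, Nat.xor_zero]

theorem xor_lt {f c : ℕ} (hf : f < 65536) (hc : c ∈ cwl) : f ^^^ c < 65536 := by
  have h : (65536 : ℕ) = 2 ^ 16 := by norm_num
  have h2 := (cw_sy c hc).2
  rw [h] at hf h2 ⊢
  exact Nat.xor_lt_two_pow hf h2

theorem Facts.rowO (h : Facts) {g : ℕ} (hg : g < 65536) :
    ∑ p ∈ range 16, tS (cls g) (cls (nb g p)) (mm g (H936.pc g) p) ≤ kO (cls g) := by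
  have h1 := Nat.le_of_ble_eq_true (h.o g hg)
  rw [← rowO_eq]
  exact h1

theorem Facts.rowE (h : Facts) {g : ℕ} (hg : g < 65536) (h0 : cls g ≠ 0) :
    ∑ p ∈ range 16, eS (cls g) (cls (nb g p)) (mm g (H936.pc g) p) ≤ kE (cls g) := by
  have h1 := h.e g hg
  unfold ckE at h1
  rw [Bool.or_eq_true] at h1
  rcases h1 with h1 | h1
  · exact absurd (Nat.eq_of_beq_eq_true h1) h0
  · rw [← rowE_eq]
    exact Nat.le_of_ble_eq_true h1

theorem Facts.rowN (h : Facts) (g : ℕ) :
    ∑ p ∈ range 16, tN (cls g) (cls (nb g p)) ≤ kO (cls g) := by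
  have h1 := Nat.le_of_ble_eq_true (h.n (sy g) (sy_lt g))
  rw [← rowN_eq]
  exact h1

theorem Facts.rowM (h : Facts) {g : ℕ} (h0 : cls g ≠ 0) :
    ∑ p ∈ range 16, eN (cls g) (cls (nb g p)) ≤ kE (cls g) := by
  have h1 := h.m (sy g) (sy_lt g)
  unfold ckM at h1
  rw [Bool.or_eq_true] at h1
  rcases h1 with h1 | h1
  · exact absurd (Nat.eq_of_beq_eq_true h1) h0
  · rw [← rowM_eq]
    exact Nat.le_of_ble_eq_true h1

section No

variable {W : Type} (G : ℕ → W) (hG : ∀ c ∈ cwl, ∀ c' ∈ cwl, G c = G c' → c = c')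

open Classical in
/-- The codeword with the given label. -/
noncomputable def st (w : W) : Option ℕ :=
  if h : ∃ c ∈ cwl, w = G c then some h.choose else none

include hG in
theorem st_some {w : W} {c : ℕ} (hc : c ∈ cwl) (h : w = G c) : st G w = some c := by
  have h1 : ∃ c ∈ cwl, w = G c := ⟨c, hc, h⟩
  unfold st
  rw [dif_pos h1]
  congr 1
  exact hG _ h1.choose_spec.1 _ hc (h1.choose_spec.2.symm.trans h)

theorem of_st {w : W} {c : ℕ} (h : st G w = some c) : c ∈ cwl ∧ w = G c := by
  unfold st at h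
  split_ifs at h with h1
  rw [← Option.some.inj h]
  exact h1.choose_spec

/-- The share of the first end. -/
noncomputable def sh (f p : ℕ) : ℕ :=
  match st G (G f) with
  | none => tN (cls f) (cls (nb f p))
  | some c => tS (cls f) (cls (nb f p)) (mm (f ^^^ c) (pc (f ^^^ c)) p)

open Classical in
theorem first_le (h : Facts) {f : ℕ} (hf : f < 65536) :
    ∑ p ∈ range 16, (if G f = G (nb f p) then sh G f p else 0) ≤ kO (cls f) := by
  rcases h0 : st G (G f) with _ | c
  · refine le_trans (sum_le_sum fun p _ => ?_) (h.rowN f)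
    split_ifs
    · simp only [sh, h0, le_refl]
    · exact Nat.zero_le _
  · have hc := (of_st G h0).1
    have h1 := h.rowO (xor_lt hf hc)
    rw [cls_xor f hc] at h1
    refine le_trans (sum_le_sum fun p _ => ?_) h1
    split_ifs
    · have h2 : cls (nb (f ^^^ c) p) = cls (nb f p) := by
        have h3 : nb (f ^^^ c) p = nb f p ^^^ c := by
          unfold nb
          rw [Nat.xor_assoc, Nat.xor_comm c, Nat.xor_assoc]
        rw [h3, cls_xor _ hc]
      simp only [sh, h0, h2, le_refl]
    · exact Nat.zero_le _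

open Classical in
include hG in
theorem second_le (h : Facts) {f : ℕ} (hf : f < 65536) :
    ∑ p ∈ range 16, (if G (nb f p) = G f then
      tW (cls (nb f p)) (cls f) - sh G (nb f p) p else 0) ≤ kE (cls f) := by
  rcases h0 : st G (G f) with _ | c
  · have h1 : cls f ≠ 0 := by
      intro h1
      have h2 := h.mem hf h1
      rw [st_some G hG h2 rfl] at h0
      exact absurd h0 (by simp)
    refine le_trans (sum_le_sum fun p _ => ?_) (h.rowM h1)
    split_ifs with h2
    · have h3 : sh G (nb f p) p = tN (cls (nb f p)) (cls f) := by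
        unfold sh
        rw [h2, h0, nb_nb]
      rw [h3]
      exact le_refl _
    · exact Nat.zero_le _
  · have hc := (of_st G h0).1
    have hsh : ∀ p < 16, G (nb f p) = G f → tW (cls (nb f p)) (cls f) - sh G (nb f p) p =
        eS (cls (f ^^^ c)) (cls (nb (f ^^^ c) p)) (mm (f ^^^ c) (H936.pc (f ^^^ c)) p) := by
      intro p hp h2
      have h3 : nb (f ^^^ c) p = nb f p ^^^ c := by
        unfold nb
        rw [Nat.xor_assoc, Nat.xor_comm c, Nat.xor_assoc]
      have h5 := mm_nb (f ^^^ c) hp (h.pc (xor_lt hf hc)) (h.pc (nb_lt (xor_lt hf hc) hp))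
      have h4 : sh G (nb f p) p = tS (cls (nb f p)) (cls f)
          (mm (nb f p ^^^ c) (H936.pc (nb f p ^^^ c)) p) := by
        unfold sh
        rw [h2, h0, nb_nb]
      rw [h4, ← h3, h5, h3, cls_xor _ hc, cls_xor _ hc]
      rfl
    by_cases h1 : cls f = 0
    · have h2 := h.mem hf h1
      have h3 : f = c := hG f h2 c hc (of_st G h0).2
      refine le_trans (le_of_eq (sum_eq_zero fun p hp => ?_)) (Nat.zero_le _)
      split_ifs with h4
      · rw [hsh p (mem_range.1 hp) h4, ← h3, Nat.xor_self]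
        exact cw_end p (mem_range.1 hp)
      · rfl
    · have h2 := h.rowE (xor_lt hf hc) (by rwa [cls_xor f hc])
      rw [cls_xor f hc] at h2
      refine le_trans (sum_le_sum fun p hp => ?_) h2
      split_ifs with h4
      · rw [hsh p (mem_range.1 hp) h4, cls_xor f hc]
      · exact Nat.zero_le _

theorem sum_nb (F : ℕ → ℕ → ℕ) : ∑ f ∈ range 65536, ∑ p ∈ range 16, F f p =
    ∑ f ∈ range 65536, ∑ p ∈ range 16, F (nb f p) p := by
  rw [sum_comm, sum_comm (f := fun f p => F (nb f p) p)]
  refine sum_congr rfl fun p hp => ?_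
  refine sum_nbij' (fun f => nb f p) (fun f => nb f p) ?_ ?_ ?_ ?_ ?_
  · intro f hf
    exact mem_range.2 (nb_lt (mem_range.1 hf) (mem_range.1 hp))
  · intro f hf
    exact mem_range.2 (nb_lt (mem_range.1 hf) (mem_range.1 hp))
  · intro f _
    exact nb_nb f p
  · intro f _
    exact nb_nb f p
  · intro f _
    simp only [nb_nb]

open Classical in
include hG in
theorem main_le (h : Facts) : ∑ f ∈ range 65536, ∑ p ∈ range 16,
    (if G f = G (nb f p) then wf p f else 0) ≤ 538567680 := by
  have h1 : ∑ f ∈ range 65536, ∑ p ∈ range 16, (if G f = G (nb f p) then wf p f else 0) ≤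
      ∑ f ∈ range 65536, ∑ p ∈ range 16, (if G f = G (nb f p) then sh G f p else 0) +
      ∑ f ∈ range 65536, ∑ p ∈ range 16, (if G f = G (nb f p) then
        tW (cls f) (cls (nb f p)) - sh G f p else 0) := by
    rw [← sum_add_distrib]
    refine sum_le_sum fun f _ => ?_
    rw [← sum_add_distrib]
    refine sum_le_sum fun p _ => ?_
    split_ifs
    · exact le_add_tsub
    · exact Nat.zero_le _
  refine h1.trans ?_
  rw [← h.k]
  have h2 : ∑ f ∈ range 65536, kf f = ∑ f ∈ range 65536, kO (cls f) +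
      ∑ f ∈ range 65536, kE (cls f) := by
    rw [← sum_add_distrib]
    rfl
  rw [h2]
  refine Nat.add_le_add (sum_le_sum fun f hf => first_le G h (mem_range.1 hf)) ?_
  rw [sum_nb]
  refine sum_le_sum fun f hf => le_trans (le_of_eq ?_) (second_le G hG h (mem_range.1 hf))
  simp only [nb_nb]

end No

end Vale.Agent.P325.H936
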